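import Vale.Agent.P141.PL.H804.Fin
import Vale.Agent.P141.PL.H588.Fun
import Vale.Agent.P141.PL.H317.CostDefs

/-!
# The three-term bound in the form used by the cost theorem
-/

namespace Vale.Agent.P141.PL.H804

open Finset Vale.Agent.P141.PL Vale.Agent.P141.PL.H588

noncomputable section

theorem star_th : H317.Star fun J => (13 * 6601 : ℝ) * (J + 1) ^ 5 := by
  intro N J R c hc hJ A B C cA cB cC DA DB DC hA hB hC cap mA mB mC
  have hmem : ∀ k : ℕ, ∀ m ∈ bx3 N R k (c k), m ∈ H317.cbs N R k := fun k m hm =>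
    (mem_filter.1 hm).1
  have h := star stMov (by norm_num : (0 : ℝ) ≤ 6600) hc hJ.le hA hB hC
    (fun k hk m hm => (cap k hk m (hmem k m hm)).1)
    (fun k hk m hm => (cap k hk m (hmem k m hm)).2.1)
    (fun k hk m hm => (cap k hk m (hmem k m hm)).2.2) mA mB mC
  rw [mul_comm DC DA] at h
  refine (le_of_eq ?_).trans (h.trans (le_of_eq ?_))
  · refine sum_congr rfl fun k _ => ?_
    congr 1
  · norm_num

end

end Vale.Agent.P141.PL.H804
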