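import Vale.Agent.P141.PL.H804.Star

/-!
# The bound for moving inputs with caps: assembly
-/

namespace Vale.Agent.P141.PL.H804

open Finset Matrix Vale.Agent.P075 Vale.Agent.P141.PL Vale.Agent.P141.PL.H588

noncomputable section

theorem tri_eq' {k : ℕ} (hk : 1 ≤ k) (m : Pt) (A B C : ℤ → ℤ → ℝ) :
    tri k m A B C = T3 (hd k) (bl k A m.1 m.2.1) (bl k B m.2.1 m.2.2) (bl k C m.1 m.2.2)ᵀ := by
  obtain ⟨k', rfl⟩ : ∃ k', k = k' + 1 := ⟨k - 1, by omega⟩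
  exact tri_eq k' m A B C

/-- a normalised piece of the form -/
def pf (μ₀ μ₁ μ₂ : ℝ) (a b e k : ℕ) (m : Pt) (A B C : ℤ → ℤ → ℝ) : ℝ :=
  (2 ^ k)⁻¹ * T3 (hd k) (pc (μ₀ * (4 ^ k)⁻¹) (bl k A m.1 m.2.1) a)
    (pc (μ₁ * (4 ^ k)⁻¹) (bl k B m.2.1 m.2.2) b) (pc (μ₂ * (4 ^ k)⁻¹) (bl k C m.1 m.2.2)ᵀ e)

theorem lw_mul' (μ x : ℝ) (a : ℕ) : lw (μ * x) a = lw μ a * x := by unfold lw; ring

/-- scaling of one piece -/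
theorem scale_sq {k : ℕ} {T α β γ M M' : ℝ} (hα : 0 < α) (hβ : 0 < β) (hγ : 0 < γ)
    (h : T ^ 2 ≤ 36 * ((α * (4 ^ k)⁻¹) * (β * (4 ^ k)⁻¹) * (γ * (4 ^ k)⁻¹))⁻¹ * (M * M')) :
    ((2 ^ k)⁻¹ * T) ^ 2 ≤ 36 * (α * β * γ)⁻¹ * ((4 ^ k * M) * (4 ^ k * M')) := by
  have h4 : (4 : ℝ) ^ k = (2 ^ k) ^ 2 := by rw [← pow_mul, mul_comm, pow_mul]; norm_num
  have h2 : (0 : ℝ) < 2 ^ k := by positivity
  rw [mul_pow]
  refine (mul_le_mul_of_nonneg_left h (by positivity)).trans (le_of_eq ?_)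
  rw [h4]
  field_simp

section level

variable {μ₀ μ₁ μ₂ : ℝ} {k : ℕ} {m : Pt} {A B C : ℤ → ℤ → ℝ}

theorem pf_sq (h₀ : 0 < μ₀) (h₁ : 0 < μ₁) (h₂ : 0 < μ₂)
    (k₀ : (1 - gramC (μ₀ * (4 ^ k)⁻¹) (bl k A m.1 m.2.1)).PosSemidef)
    (k₁ : (1 - gramC (μ₁ * (4 ^ k)⁻¹) (bl k B m.2.1 m.2.2)).PosSemidef)
    (k₂ : (1 - gramC (μ₂ * (4 ^ k)⁻¹) (bl k C m.1 m.2.2)ᵀ).PosSemidef) (a b e : ℕ) :
    (pf μ₀ μ₁ μ₂ a b e k m A B C ^ 2 ≤ 36 * (lw μ₀ a * lw μ₁ b * lw μ₂ e)⁻¹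
      * ((4 ^ k * M2 (hd k) (lw μ₂ e * (4 ^ k)⁻¹) (lw μ₀ a * (4 ^ k)⁻¹)
          (bl k C m.1 m.2.2)ᵀ (bl k A m.1 m.2.1))
        * (4 ^ k * M2 (hd k) (lw μ₀ a * (4 ^ k)⁻¹) (lw μ₁ b * (4 ^ k)⁻¹)
          (bl k A m.1 m.2.1) (bl k B m.2.1 m.2.2)))) ∧
    (pf μ₀ μ₁ μ₂ a b e k m A B C ^ 2 ≤ 36 * (lw μ₀ a * lw μ₁ b * lw μ₂ e)⁻¹
      * ((4 ^ k * M2 (hd k) (lw μ₀ a * (4 ^ k)⁻¹) (lw μ₁ b * (4 ^ k)⁻¹)
          (bl k A m.1 m.2.1) (bl k B m.2.1 m.2.2))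
        * (4 ^ k * M2 (hd k) (lw μ₁ b * (4 ^ k)⁻¹) (lw μ₂ e * (4 ^ k)⁻¹)
          (bl k B m.2.1 m.2.2) (bl k C m.1 m.2.2)ᵀ))) ∧
    (pf μ₀ μ₁ μ₂ a b e k m A B C ^ 2 ≤ 36 * (lw μ₀ a * lw μ₁ b * lw μ₂ e)⁻¹
      * ((4 ^ k * M2 (hd k) (lw μ₁ b * (4 ^ k)⁻¹) (lw μ₂ e * (4 ^ k)⁻¹)
          (bl k B m.2.1 m.2.2) (bl k C m.1 m.2.2)ᵀ)
        * (4 ^ k * M2 (hd k) (lw μ₂ e * (4 ^ k)⁻¹) (lw μ₀ a * (4 ^ k)⁻¹)
          (bl k C m.1 m.2.2)ᵀ (bl k A m.1 m.2.1)))) := by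
  have q : (0 : ℝ) < (4 ^ k)⁻¹ := by positivity
  have a0 := lw_pos h₀ a
  have a1 := lw_pos h₁ b
  have a2 := lw_pos h₂ e
  have t0 := T3_pc_sq_le (hd_symm k) (hd_sq k) (mul_pos h₀ q) (mul_pos h₁ q) (mul_pos h₂ q)
    k₀ k₁ k₂ a b e
  have t1 := T3_pc_sq_le (hd_symm k) (hd_sq k) (mul_pos h₁ q) (mul_pos h₂ q) (mul_pos h₀ q)
    k₁ k₂ k₀ b e a
  have t2 := T3_pc_sq_le (hd_symm k) (hd_sq k) (mul_pos h₂ q) (mul_pos h₀ q) (mul_pos h₁ q)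
    k₂ k₀ k₁ e a b
  rw [← T3_cyc] at t1
  rw [T3_cyc] at t2
  simp only [lw_mul'] at t0 t1 t2
  refine ⟨?_, ?_, ?_⟩
  · exact scale_sq a0 a1 a2 t0
  · have := scale_sq a1 a2 a0 t1
    rwa [show lw μ₁ b * lw μ₂ e * lw μ₀ a = lw μ₀ a * lw μ₁ b * lw μ₂ e by ring] at this
  · have := scale_sq a2 a0 a1 t2
    rwa [show lw μ₂ e * lw μ₀ a * lw μ₁ b = lw μ₀ a * lw μ₁ b * lw μ₂ e by ring] at this

end level

theorem level_sum {C₀ : ℝ} (h : StMov C₀) (hC0 : 0 ≤ C₀) {N : ℕ} {R : Pt} {c : ℕ → ℤ}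
    (hc : Pl c) {A B C : ℕ → ℤ → ℤ → ℝ} {J : ℕ} (hJ : N ≤ 2 ^ J) {cA cB cC DA DB DC : ℝ}
    (hA : 0 < cA) (hB : 0 < cB) (hC : 0 < cC)
    (capA : ∀ k ∈ Icc 1 N, ∀ m ∈ bx3 N R k (c k), Cap k m.1 m.2.1 cA (A k))
    (capB : ∀ k ∈ Icc 1 N, ∀ m ∈ bx3 N R k (c k), Cap k m.2.1 m.2.2 cB (B k))
    (capC : ∀ k ∈ Icc 1 N, ∀ m ∈ bx3 N R k (c k), Cap k m.1 m.2.2 cC (C k))
    (mA : Mv N R.1 R.2.1 J DA A) (mB : Mv N R.2.1 R.2.2 J DB B) (mC : Mv N R.1 R.2.2 J DC C)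
    (a b e : ℕ) :
    ∑ k ∈ Icc 1 N, ∑ m ∈ bx3 N R k (c k),
        |pf (cA ^ 2)⁻¹ (cB ^ 2)⁻¹ (cC ^ 2)⁻¹ a b e k m (A k) (B k) (C k)|
      ≤ 12 * (C₀ * (1 + J * (J + 1))) * (cA * Real.sqrt (DB * DC) + cB * Real.sqrt (DC * DA)
        + cC * Real.sqrt (DA * DB)) := by
  have h₀ : 0 < (cA ^ 2)⁻¹ := by positivity
  have h₁ : 0 < (cB ^ 2)⁻¹ := by positivity
  have h₂ : 0 < (cC ^ 2)⁻¹ := by positivity
  have a0 := lw_pos h₀ a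
  have a1 := lw_pos h₁ b
  have a2 := lw_pos h₂ e
  have DA0 : 0 ≤ DA := (sq_nonneg' _ _ _ _).trans (mA.1 N le_rfl)
  have DB0 : 0 ≤ DB := (sq_nonneg' _ _ _ _).trans (mB.1 N le_rfl)
  have DC0 : 0 ≤ DC := (sq_nonneg' _ _ _ _).trans (mC.1 N le_rfl)
  have hq : ∀ k : ℕ, (0 : ℝ) ≤ (4 ^ k)⁻¹ := fun k => by positivity
  set s : Finset (Σ _ : ℕ, Pt) := (Icc 1 N).sigma fun k => bx3 N R k (c k) with hs
  rw [← Finset.sum_sigma (Icc 1 N) (fun k => bx3 N R k (c k)) (fun i : Σ _ : ℕ, Pt =>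
    |pf (cA ^ 2)⁻¹ (cB ^ 2)⁻¹ (cC ^ 2)⁻¹ a b e i.1 i.2 (A i.1) (B i.1) (C i.1)|)]
  have key : ∀ i ∈ s, _ := fun i hi => by
    have hi' := Finset.mem_sigma.1 (hs ▸ hi)
    exact pf_sq h₀ h₁ h₂ (cap_one hA (capA i.1 hi'.1 i.2 hi'.2))
      (cap_one hB (capB i.1 hi'.1 i.2 hi'.2))
      (by
        have h3 := cap_one hC (cap_swap (capC i.1 hi'.1 i.2 hi'.2))
        rwa [bl_swap] at h3) a b e
  refine core s _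
    (fun i => 4 ^ i.1 * M2 (hd i.1) (lw (cA ^ 2)⁻¹ a * (4 ^ i.1)⁻¹) (lw (cB ^ 2)⁻¹ b * (4 ^ i.1)⁻¹)
          (bl i.1 (A i.1) i.2.1 i.2.2.1) (bl i.1 (B i.1) i.2.2.1 i.2.2.2))
    (fun i => 4 ^ i.1 * M2 (hd i.1) (lw (cB ^ 2)⁻¹ b * (4 ^ i.1)⁻¹) (lw (cC ^ 2)⁻¹ e * (4 ^ i.1)⁻¹)
          (bl i.1 (B i.1) i.2.2.1 i.2.2.2) (bl i.1 (C i.1) i.2.1 i.2.2.2)ᵀ)
    (fun i => 4 ^ i.1 * M2 (hd i.1) (lw (cC ^ 2)⁻¹ e * (4 ^ i.1)⁻¹) (lw (cA ^ 2)⁻¹ a * (4 ^ i.1)⁻¹)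
          (bl i.1 (C i.1) i.2.1 i.2.2.2)ᵀ (bl i.1 (A i.1) i.2.1 i.2.2.1))
    a0 a1 a2 (by positivity) DA0 DB0 DC0 (le_lw h₀.le a) (le_lw h₁.le b) (le_lw h₂.le e) hA hB hC
    (fun i _ => mul_nonneg (by positivity) (M2_nonneg (hd_symm _) (mul_nonneg a0.le (hq _))
      (mul_nonneg a1.le (hq _)) _ _))
    (fun i _ => mul_nonneg (by positivity) (M2_nonneg (hd_symm _) (mul_nonneg a1.le (hq _))
      (mul_nonneg a2.le (hq _)) _ _))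
    (fun i _ => mul_nonneg (by positivity) (M2_nonneg (hd_symm _) (mul_nonneg a2.le (hq _))
      (mul_nonneg a0.le (hq _)) _ _))
    (fun i hi => (key i hi).1) (fun i hi => (key i hi).2.1) (fun i hi => (key i hi).2.2) ?_ ?_ ?_
  · rw [hs, Finset.sum_sigma]
    have h1 := pair_le h hc hJ a0.le a1.le mA mB.swap
    simp only [mnk_two N R _ _ a0.le a1.le] at h1
    exact h1
  · rw [hs, Finset.sum_sigma]
    have h1 := pair_le h hc hJ a1.le a2.le mB mC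
    simp only [mnk_three N R _ _ a1.le a2.le] at h1
    exact h1
  · rw [hs, Finset.sum_sigma]
    have h1 := pair_le h hc hJ a0.le a2.le mA.swap mC.swap
    simp only [mnk_one N R _ _ a0.le a2.le] at h1
    rw [add_comm (lw (cA ^ 2)⁻¹ a * DA)] at h1
    exact h1

/-- one box: the form against its pieces and the three tails -/
theorem box_le {k L : ℕ} (hk : 1 ≤ k) {cA cB cC : ℝ} (hA : 0 < cA) (hB : 0 < cB) (hC : 0 < cC)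
    (m : Pt) (A B C : ℤ → ℤ → ℝ) :
    (2 ^ k)⁻¹ * |tri k m A B C| ≤ (∑ a ∈ range (L + 1), ∑ b ∈ range (L + 1),
        ∑ e ∈ range (L + 1), |pf (cA ^ 2)⁻¹ (cB ^ 2)⁻¹ (cC ^ 2)⁻¹ a b e k m A B C|)
      + (cA / 2 ^ L * (Real.sqrt ((bl k B m.2.1 m.2.2)ᵀ * bl k B m.2.1 m.2.2).trace
          * Real.sqrt ((bl k C m.1 m.2.2)ᵀ * bl k C m.1 m.2.2).trace)
      + cB / 2 ^ L * (Real.sqrt ((bl k C m.1 m.2.2)ᵀ * bl k C m.1 m.2.2).trace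
          * Real.sqrt ((bl k A m.1 m.2.1)ᵀ * bl k A m.1 m.2.1).trace)
      + cC / 2 ^ L * (Real.sqrt ((bl k A m.1 m.2.1)ᵀ * bl k A m.1 m.2.1).trace
          * Real.sqrt ((bl k B m.2.1 m.2.2)ᵀ * bl k B m.2.1 m.2.2).trace)) := by
  have h₀ : 0 < (cA ^ 2)⁻¹ := by positivity
  have h₁ : 0 < (cB ^ 2)⁻¹ := by positivity
  have h₂ : 0 < (cC ^ 2)⁻¹ := by positivity
  have q : (0 : ℝ) < (4 ^ k)⁻¹ := by positivity
  have h2k : (0 : ℝ) < 2 ^ k := by positivity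
  have h := T3_box (hd_symm k) (hd_sq k) (mul_pos h₀ q) (mul_pos h₁ q) (mul_pos h₂ q)
    (bl k A m.1 m.2.1) (bl k B m.2.1 m.2.2) (bl k C m.1 m.2.2)ᵀ L
  rw [trace_bl_transpose, sqrt_tail hA, sqrt_tail hB, sqrt_tail hC] at h
  rw [tri_eq' hk]
  have h' := mul_le_mul_of_nonneg_left h (inv_nonneg.2 h2k.le)
  refine h'.trans (le_of_eq ?_)
  rw [mul_add]
  congr 1
  · simp only [mul_sum]
    refine sum_congr rfl fun a _ => sum_congr rfl fun b _ => sum_congr rfl fun e _ => ?_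
    rw [pf, abs_mul, abs_of_pos (inv_pos.2 h2k)]
  · field_simp

theorem star_pos {C₀ : ℝ} (h : StMov C₀) (hC0 : 0 ≤ C₀) {N : ℕ} {R : Pt} {c : ℕ → ℤ}
    (hc : Pl c) {A B C : ℕ → ℤ → ℤ → ℝ} {J : ℕ} (hJ : N ≤ 2 ^ J) {cA cB cC DA DB DC : ℝ}
    (hA : 0 < cA) (hB : 0 < cB) (hC : 0 < cC)
    (capA : ∀ k ∈ Icc 1 N, ∀ m ∈ bx3 N R k (c k), Cap k m.1 m.2.1 cA (A k))
    (capB : ∀ k ∈ Icc 1 N, ∀ m ∈ bx3 N R k (c k), Cap k m.2.1 m.2.2 cB (B k))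
    (capC : ∀ k ∈ Icc 1 N, ∀ m ∈ bx3 N R k (c k), Cap k m.1 m.2.2 cC (C k))
    (mA : Mv N R.1 R.2.1 J DA A) (mB : Mv N R.2.1 R.2.2 J DB B) (mC : Mv N R.1 R.2.2 J DC C) :
    ∑ k ∈ Icc 1 N, (2 ^ k : ℝ)⁻¹ * ∑ m ∈ bx3 N R k (c k), |tri k m (A k) (B k) (C k)|
      ≤ 13 * (C₀ + 1) * (J + 1) ^ 5 * (cA * Real.sqrt (DB * DC) + cB * Real.sqrt (DC * DA)
        + cC * Real.sqrt (DA * DB)) := by
  set S := cA * Real.sqrt (DB * DC) + cB * Real.sqrt (DC * DA) + cC * Real.sqrt (DA * DB) with hS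
  have hS0 : 0 ≤ S := by positivity
  -- pieces
  have hp : ∑ k ∈ Icc 1 N, ∑ m ∈ bx3 N R k (c k), ∑ a ∈ range (J + 1), ∑ b ∈ range (J + 1),
      ∑ e ∈ range (J + 1), |pf (cA ^ 2)⁻¹ (cB ^ 2)⁻¹ (cC ^ 2)⁻¹ a b e k m (A k) (B k) (C k)|
      ≤ (J + 1) ^ 3 * (12 * (C₀ * (1 + J * (J + 1))) * S) := by
    have e1 : ∑ k ∈ Icc 1 N, ∑ m ∈ bx3 N R k (c k), ∑ a ∈ range (J + 1), ∑ b ∈ range (J + 1),
        ∑ e ∈ range (J + 1), |pf (cA ^ 2)⁻¹ (cB ^ 2)⁻¹ (cC ^ 2)⁻¹ a b e k m (A k) (B k) (C k)|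
        = ∑ a ∈ range (J + 1), ∑ b ∈ range (J + 1), ∑ e ∈ range (J + 1),
          ∑ k ∈ Icc 1 N, ∑ m ∈ bx3 N R k (c k),
            |pf (cA ^ 2)⁻¹ (cB ^ 2)⁻¹ (cC ^ 2)⁻¹ a b e k m (A k) (B k) (C k)| := by
      set s : Finset (Σ _ : ℕ, Pt) := (Icc 1 N).sigma fun k => bx3 N R k (c k) with hs
      have e2 : ∀ g : ℕ → Pt → ℝ, ∑ k ∈ Icc 1 N, ∑ m ∈ bx3 N R k (c k), g k m
          = ∑ i ∈ s, g i.1 i.2 := fun g => by rw [hs, Finset.sum_sigma]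
      simp only [e2]
      rw [sum_comm]
      refine sum_congr rfl fun a _ => ?_
      rw [sum_comm]
      refine sum_congr rfl fun b _ => ?_
      rw [sum_comm]
    rw [e1]
    have e3 : ∀ a ∈ range (J + 1), ∑ b ∈ range (J + 1), ∑ e ∈ range (J + 1),
          ∑ k ∈ Icc 1 N, ∑ m ∈ bx3 N R k (c k),
            |pf (cA ^ 2)⁻¹ (cB ^ 2)⁻¹ (cC ^ 2)⁻¹ a b e k m (A k) (B k) (C k)|
        ≤ (J + 1) * ((J + 1) * (12 * (C₀ * (1 + J * (J + 1))) * S)) := by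
      intro a _
      refine (sum_le_card_nsmul _ _ ((J + 1) * (12 * (C₀ * (1 + J * (J + 1))) * S))
        fun b _ => ?_).trans (le_of_eq ?_)
      · refine (sum_le_card_nsmul _ _ (12 * (C₀ * (1 + J * (J + 1))) * S)
          fun e _ => ?_).trans (le_of_eq ?_)
        · exact level_sum h hC0 hc hJ hA hB hC capA capB capC mA mB mC a b e
        · rw [card_range, nsmul_eq_mul]; push_cast; ring
      · rw [card_range, nsmul_eq_mul]; push_cast; ring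
    refine (sum_le_card_nsmul _ _ _ e3).trans (le_of_eq ?_)
    rw [card_range, nsmul_eq_mul]; push_cast; ring
  -- tails
  have ht : ∀ k ∈ Icc 1 N, ∑ m ∈ bx3 N R k (c k),
      (cA / 2 ^ J * (Real.sqrt ((bl k (B k) m.2.1 m.2.2)ᵀ * bl k (B k) m.2.1 m.2.2).trace
          * Real.sqrt ((bl k (C k) m.1 m.2.2)ᵀ * bl k (C k) m.1 m.2.2).trace)
      + cB / 2 ^ J * (Real.sqrt ((bl k (C k) m.1 m.2.2)ᵀ * bl k (C k) m.1 m.2.2).trace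
          * Real.sqrt ((bl k (A k) m.1 m.2.1)ᵀ * bl k (A k) m.1 m.2.1).trace)
      + cC / 2 ^ J * (Real.sqrt ((bl k (A k) m.1 m.2.1)ᵀ * bl k (A k) m.1 m.2.1).trace
          * Real.sqrt ((bl k (B k) m.2.1 m.2.2)ᵀ * bl k (B k) m.2.1 m.2.2).trace))
      ≤ (2 ^ J)⁻¹ * S := by
    intro k hk
    have hkN := (mem_Icc.1 hk).2
    have b12 := (plane_12 hkN R (c k) (A k)).trans (mA.1 k hkN)
    have b23 := (plane_23 hkN R (c k) (B k)).trans (mB.1 k hkN)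
    have b13 := (plane_13 hkN R (c k) (C k)).trans (mC.1 k hkN)
    have n12 : ∀ m : Pt, 0 ≤ ((bl k (A k) m.1 m.2.1)ᵀ * bl k (A k) m.1 m.2.1).trace :=
      fun m => trace_bl_nonneg _ _ _ _
    have n23 : ∀ m : Pt, 0 ≤ ((bl k (B k) m.2.1 m.2.2)ᵀ * bl k (B k) m.2.1 m.2.2).trace :=
      fun m => trace_bl_nonneg _ _ _ _
    have n13 : ∀ m : Pt, 0 ≤ ((bl k (C k) m.1 m.2.2)ᵀ * bl k (C k) m.1 m.2.2).trace :=
      fun m => trace_bl_nonneg _ _ _ _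
    have u0 := tail_cs _ _ _ n23 n13 b23 b13
    have u1 := tail_cs _ _ _ n13 n12 b13 b12
    have u2 := tail_cs _ _ _ n12 n23 b12 b23
    rw [sum_add_distrib, sum_add_distrib, ← mul_sum, ← mul_sum, ← mul_sum]
    have v0 := mul_le_mul_of_nonneg_left u0 (show 0 ≤ cA / 2 ^ J by positivity)
    have v1 := mul_le_mul_of_nonneg_left u1 (show 0 ≤ cB / 2 ^ J by positivity)
    have v2 := mul_le_mul_of_nonneg_left u2 (show 0 ≤ cC / 2 ^ J by positivity)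
    refine (add_le_add (add_le_add v0 v1) v2).trans (le_of_eq ?_)
    rw [hS]
    field_simp
  have hsum : ∑ k ∈ Icc 1 N, (2 ^ k : ℝ)⁻¹ * ∑ m ∈ bx3 N R k (c k), |tri k m (A k) (B k) (C k)|
      ≤ (J + 1) ^ 3 * (12 * (C₀ * (1 + J * (J + 1))) * S) + ∑ k ∈ Icc 1 N, (2 ^ J : ℝ)⁻¹ * S := by
    refine le_trans ?_ (add_le_add hp (sum_le_sum ht))
    rw [← sum_add_distrib]
    refine sum_le_sum fun k hk => ?_
    rw [← sum_add_distrib, mul_sum]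
    exact sum_le_sum fun m _ => box_le (mem_Icc.1 hk).1 hA hB hC m (A k) (B k) (C k)
  refine hsum.trans ?_
  rw [sum_const, Nat.card_Icc, Nat.add_sub_cancel, nsmul_eq_mul]
  have hN : (N : ℝ) * ((2 ^ J)⁻¹ * S) ≤ S := by
    have h1 : (N : ℝ) ≤ 2 ^ J := by exact_mod_cast hJ
    have h2 : (N : ℝ) * (2 ^ J)⁻¹ ≤ 1 := by
      rw [← div_eq_mul_inv, div_le_one (by positivity)]; exact h1
    rw [← mul_assoc]
    exact mul_le_of_le_one_left hS0 h2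
  have hJ0 : (0 : ℝ) ≤ J := Nat.cast_nonneg J
  have h3 : (1 : ℝ) + J * (J + 1) ≤ (J + 1) ^ 2 := by nlinarith
  have h4 : (1 : ℝ) ≤ (J + 1) ^ 5 := one_le_pow₀ (by linarith)
  have h5 : (J + 1 : ℝ) ^ 3 * (12 * (C₀ * (1 + J * (J + 1))) * S)
      ≤ 12 * C₀ * (J + 1) ^ 5 * S := by
    have : (J + 1 : ℝ) ^ 3 * (12 * (C₀ * (1 + J * (J + 1))) * S)
        = 12 * C₀ * (J + 1) ^ 3 * S * (1 + J * (J + 1)) := by ring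
    rw [this]
    have h6 : 0 ≤ 12 * C₀ * (J + 1 : ℝ) ^ 3 * S := by positivity
    calc 12 * C₀ * (J + 1) ^ 3 * S * (1 + J * (J + 1))
        ≤ 12 * C₀ * (J + 1) ^ 3 * S * (J + 1) ^ 2 := mul_le_mul_of_nonneg_left h3 h6
      _ = _ := by ring
  have h7 : S ≤ (J + 1 : ℝ) ^ 5 * S := le_mul_of_one_le_left hS0 h4
  have h8 : 0 ≤ C₀ * ((J + 1 : ℝ) ^ 5 * S) := by positivity
  have h9 : 0 ≤ (J + 1 : ℝ) ^ 5 * S := by positivity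
  nlinarith

theorem Cap.mono {k : ℕ} {m1 m2 : ℤ} {c c' : ℝ} {A : ℤ → ℤ → ℝ} (h : Cap k m1 m2 c A)
    (hc : 0 ≤ c) (hcc : c ≤ c') : Cap k m1 m2 c' A := by
  intro u v
  refine (h u v).trans ?_
  have h1 : (c * 2 ^ k) ^ 2 ≤ (c' * 2 ^ k) ^ 2 := by gcongr
  have h2 : 0 ≤ ∑ x ∈ iv k m1, u x ^ 2 := sum_nonneg fun _ _ => sq_nonneg _
  have h3 : 0 ≤ ∑ y ∈ iv k m2, v y ^ 2 := sum_nonneg fun _ _ => sq_nonneg _
  exact mul_le_mul_of_nonneg_right (mul_le_mul_of_nonneg_right h1 h2) h3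

/-- **Three-term bound for moving inputs with caps.** -/
theorem star {C₀ : ℝ} (h : StMov C₀) (hC0 : 0 ≤ C₀) {N : ℕ} {R : Pt} {c : ℕ → ℤ}
    (hc : Pl c) {A B C : ℕ → ℤ → ℤ → ℝ} {J : ℕ} (hJ : N ≤ 2 ^ J) {cA cB cC DA DB DC : ℝ}
    (hA : 0 ≤ cA) (hB : 0 ≤ cB) (hC : 0 ≤ cC)
    (capA : ∀ k ∈ Icc 1 N, ∀ m ∈ bx3 N R k (c k), Cap k m.1 m.2.1 cA (A k))
    (capB : ∀ k ∈ Icc 1 N, ∀ m ∈ bx3 N R k (c k), Cap k m.2.1 m.2.2 cB (B k))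
    (capC : ∀ k ∈ Icc 1 N, ∀ m ∈ bx3 N R k (c k), Cap k m.1 m.2.2 cC (C k))
    (mA : Mv N R.1 R.2.1 J DA A) (mB : Mv N R.2.1 R.2.2 J DB B) (mC : Mv N R.1 R.2.2 J DC C) :
    ∑ k ∈ Icc 1 N, (2 ^ k : ℝ)⁻¹ * ∑ m ∈ bx3 N R k (c k), |tri k m (A k) (B k) (C k)|
      ≤ 13 * (C₀ + 1) * (J + 1) ^ 5 * (cA * Real.sqrt (DB * DC) + cB * Real.sqrt (DC * DA)
        + cC * Real.sqrt (DA * DB)) := by
  set P := 13 * (C₀ + 1) * (J + 1 : ℝ) ^ 5 with hP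
  set T := Real.sqrt (DB * DC) + Real.sqrt (DC * DA) + Real.sqrt (DA * DB) with hT
  have hP0 : 0 ≤ P := by positivity
  have hT0 : 0 ≤ T := by positivity
  refine le_of_forall_pos_le_add fun ε hε => ?_
  set η := ε / (P * T + 1) with hη
  have hη0 : 0 < η := by positivity
  have h1 := star_pos h hC0 hc hJ (by linarith : 0 < cA + η) (by linarith : 0 < cB + η)
    (by linarith : 0 < cC + η)
    (fun k hk m hm => (capA k hk m hm).mono hA (by linarith))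
    (fun k hk m hm => (capB k hk m hm).mono hB (by linarith))
    (fun k hk m hm => (capC k hk m hm).mono hC (by linarith)) mA mB mC
  refine h1.trans ?_
  have e : P * ((cA + η) * Real.sqrt (DB * DC) + (cB + η) * Real.sqrt (DC * DA)
      + (cC + η) * Real.sqrt (DA * DB)) = P * (cA * Real.sqrt (DB * DC)
      + cB * Real.sqrt (DC * DA) + cC * Real.sqrt (DA * DB)) + P * T * η := by
    rw [hT]; ring
  rw [e]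
  have h2 : P * T * η ≤ ε := by
    rw [hη, mul_div_assoc', div_le_iff₀ (by positivity)]
    nlinarith
  linarith

end

end Vale.Agent.P141.PL.H804
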