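import Vale.Agent.P141.PL.H804.Piece
import Vale.Agent.P141.PL.H588.Gram

/-!
# Blocks of samples, caps, and the terms of the fixed-grid functional
-/

namespace Vale.Agent.P141.PL.H804

open Finset Matrix Vale.Agent.P075 Vale.Agent.P141.PL Vale.Agent.P141.PL.H588

noncomputable section

/-- block of samples of scale `k` and indices `m1`, `m2` -/
def bl (k : ℕ) (A : ℤ → ℤ → ℝ) (m1 m2 : ℤ) : Matrix (Ix k) (Ix k) ℝ :=
  smp k k A (2 ^ k * m1) (2 ^ k * m2)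

/-- the block of scale `k` has normalised operator norm at most `c` -/
def Cap (k : ℕ) (m1 m2 : ℤ) (c : ℝ) (A : ℤ → ℤ → ℝ) : Prop :=
  ∀ u v : ℤ → ℝ, (∑ x ∈ iv k m1, ∑ y ∈ iv k m2, u x * v y * A x y) ^ 2
    ≤ (c * 2 ^ k) ^ 2 * (∑ x ∈ iv k m1, u x ^ 2) * (∑ y ∈ iv k m2, v y ^ 2)

theorem val_inj (k : ℕ) : Function.Injective (val k) := by
  induction k with
  | zero => intro i j _; exact @Subsingleton.elim Unit _ i j
  | succ k ih =>
    intro i j h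
    rcases i with i | i <;> rcases j with j | j
    · have : val k i = val k j := h
      rw [ih this]
    · have h' : val k i = 2 ^ k + val k j := h
      have := val_lt k i
      omega
    · have h' : 2 ^ k + val k i = val k j := h
      have := val_lt k j
      omega
    · have h' : 2 ^ k + val k i = 2 ^ k + val k j := h
      have : val k i = val k j := by omega
      rw [ih this]

/-- extension of a vector on the indices -/
theorem exists_ext (k : ℕ) (m : ℤ) (w : Ix k → ℝ) :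
    ∃ u : ℤ → ℝ, ∀ i : Ix k, u (2 ^ k * m + val k i) = w i := by
  have hinj : Function.Injective (fun i : Ix k => (2 ^ k * m + val k i : ℤ)) := by
    intro i j h
    simp only [add_right_inj] at h
    exact val_inj k (by exact_mod_cast h)
  exact ⟨Function.extend (fun i : Ix k => (2 ^ k * m + val k i : ℤ)) w 0,
    fun i => hinj.extend_apply w 0 i⟩

theorem cap_psd {k : ℕ} {m1 m2 : ℤ} {c : ℝ} {A : ℤ → ℤ → ℝ} (h : Cap k m1 m2 c A) :
    ((c * 2 ^ k) ^ 2 • (1 : Matrix (Ix k) (Ix k) ℝ)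
      - (bl k A m1 m2)ᵀ * bl k A m1 m2).PosSemidef := by
  refine PosSemidef.of_dotProduct_mulVec_nonneg ?_ fun v => ?_
  · change _ᴴ = _
    rw [conjTranspose_eq_transpose_of_trivial]
    simp
  · rw [star_trivial, Matrix.sub_mulVec, dotProduct_sub, smul_mulVec, one_mulVec,
      dotProduct_smul, ← mulVec_mulVec, dotProduct_mulVec, vecMul_transpose, smul_eq_mul]
    set w : Ix k → ℝ := bl k A m1 m2 *ᵥ v with hw
    obtain ⟨u', hu'⟩ := exists_ext k m1 w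
    obtain ⟨v', hv'⟩ := exists_ext k m2 v
    have h1 := h u' v'
    rw [sum_iv, sum_iv, sum_iv] at h1
    simp only [sum_iv, hu', hv'] at h1
    have e1 : ∑ i : Ix k, ∑ j : Ix k, w i * v j * A (2 ^ k * m1 + val k i) (2 ^ k * m2 + val k j)
        = w ⬝ᵥ w := by
      rw [dotProduct]
      refine sum_congr rfl fun i _ => ?_
      have hwi : w i = ∑ j : Ix k, A (2 ^ k * m1 + val k i) (2 ^ k * m2 + val k j) * v j := rfl
      have e0 : w i * w i
          = w i * ∑ j : Ix k, A (2 ^ k * m1 + val k i) (2 ^ k * m2 + val k j) * v j := by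
        rw [← hwi]
      rw [e0, mul_sum]
      exact sum_congr rfl fun j _ => by ring
    have e2 : ∑ i : Ix k, w i ^ 2 = w ⬝ᵥ w := by
      rw [dotProduct]; exact sum_congr rfl fun i _ => by ring
    have e3 : ∑ j : Ix k, v j ^ 2 = v ⬝ᵥ v := by
      rw [dotProduct]; exact sum_congr rfl fun i _ => by ring
    rw [e1, e2, e3] at h1
    have hw0 : 0 ≤ w ⬝ᵥ w := by rw [← e2]; exact sum_nonneg fun i _ => sq_nonneg _
    have hv0 : 0 ≤ v ⬝ᵥ v := by rw [← e3]; exact sum_nonneg fun i _ => sq_nonneg _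
    have hK : 0 ≤ (c * 2 ^ k) ^ 2 * (v ⬝ᵥ v) := mul_nonneg (sq_nonneg _) hv0
    rcases hw0.eq_or_lt with h0 | h0
    · rw [← h0]; linarith
    · have : (w ⬝ᵥ w) * (w ⬝ᵥ w) ≤ (w ⬝ᵥ w) * ((c * 2 ^ k) ^ 2 * (v ⬝ᵥ v)) := by
        nlinarith
      have := le_of_mul_le_mul_left this h0
      linarith

theorem cap_swap {k : ℕ} {m1 m2 : ℤ} {c : ℝ} {A : ℤ → ℤ → ℝ} (h : Cap k m1 m2 c A) :
    Cap k m2 m1 c (fun y x => A x y) := by
  intro u v
  have h1 := h v u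
  rw [sum_comm] at h1
  calc (∑ x ∈ iv k m2, ∑ y ∈ iv k m1, u x * v y * A y x) ^ 2
      = (∑ y ∈ iv k m2, ∑ x ∈ iv k m1, v x * u y * A x y) ^ 2 := by
        congr 1
        exact sum_congr rfl fun y _ => sum_congr rfl fun x _ => by ring
    _ ≤ _ := h1.trans (le_of_eq (by ring))

theorem bl_swap (k : ℕ) (A : ℤ → ℤ → ℝ) (m1 m2 : ℤ) :
    bl k (fun y x => A x y) m2 m1 = (bl k A m1 m2)ᵀ := by
  ext i j
  rfl

theorem cap_one {k : ℕ} {m1 m2 : ℤ} {c : ℝ} (hc : 0 < c) {A : ℤ → ℤ → ℝ}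
    (h : Cap k m1 m2 c A) : (1 - gramC ((c ^ 2)⁻¹ * (4 ^ k)⁻¹) (bl k A m1 m2)).PosSemidef := by
  have h1 := (cap_psd h).smul (show (0 : ℝ) ≤ (c ^ 2)⁻¹ * (4 ^ k)⁻¹ by positivity)
  rw [smul_sub, smul_smul] at h1
  have e : (c ^ 2)⁻¹ * ((4 : ℝ) ^ k)⁻¹ * (c * 2 ^ k) ^ 2 = 1 := by
    have : (4 : ℝ) ^ k = (2 ^ k) ^ 2 := by rw [← pow_mul, mul_comm, pow_mul]; norm_num
    rw [this]
    field_simp
  rw [e, one_smul] at h1
  exact h1

theorem hd_symm (k : ℕ) : (hd k)ᵀ = hd k := by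
  cases k with
  | zero => exact transpose_one
  | succ k => exact rad_symm (m := Ix k)

theorem hd_sq (k : ℕ) : hd k * hd k = 1 := by
  cases k with
  | zero => exact Matrix.mul_one _
  | succ k => exact rad_sq (m := Ix k)

/-! ### the trilinear form -/

theorem hs_val (k : ℕ) (m : ℤ) (i : Ix (k + 1)) :
    hs (k + 1) (2 ^ (k + 1) * m + val (k + 1) i) = sg (k + 1) (val (k + 1) i) := by
  have hv := val_lt (k + 1) i
  set v := val (k + 1) i
  unfold hs sg ix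
  rw [Nat.add_sub_cancel]
  have hp : (0 : ℤ) < 2 ^ k := by positivity
  have e : ((2 : ℤ) ^ (k + 1) * m + v) / 2 ^ k = 2 * m + (v : ℤ) / 2 ^ k := by
    rw [show (2 : ℤ) ^ (k + 1) * m + v = v + 2 ^ k * (2 * m) by ring,
      Int.add_mul_ediv_left _ _ hp.ne', add_comm]
  rw [e]
  by_cases h : 2 * v < 2 ^ (k + 1)
  · rw [if_pos h, if_pos]
    have h1 : (v : ℤ) / 2 ^ k = 0 := by
      refine Int.ediv_eq_zero_of_lt (by positivity) ?_
      have : v < 2 ^ k := by rw [pow_succ] at h; omega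
      exact_mod_cast this
    rw [h1]; omega
  · rw [if_neg h, if_neg]
    have h1 : (v : ℤ) / 2 ^ k = 1 := by
      have h2 : 2 ^ k ≤ v := by rw [pow_succ] at h; omega
      have h3 : v < 2 * 2 ^ k := by rw [pow_succ] at hv; omega
      have h2' : (2 : ℤ) ^ k ≤ v := by exact_mod_cast h2
      have h3' : (v : ℤ) < 2 * 2 ^ k := by exact_mod_cast h3
      refine le_antisymm ?_ ?_
      · exact Int.lt_add_one_iff.mp (Int.ediv_lt_of_lt_mul hp (by linarith))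
      · exact Int.le_ediv_of_mul_le hp (by linarith)
    rw [h1]; omega

theorem tri_eq (k : ℕ) (m : Pt) (A B C : ℤ → ℤ → ℝ) :
    tri (k + 1) m A B C = T3 (hd (k + 1)) (bl (k + 1) A m.1 m.2.1) (bl (k + 1) B m.2.1 m.2.2)
      (bl (k + 1) C m.1 m.2.2)ᵀ := by
  have key : ∀ F₀ F₁ F₂ : Matrix (Ix k ⊕ Ix k) (Ix k ⊕ Ix k) ℝ, T3 (rad (Ix k)) F₀ F₁ F₂
      = ∑ i, ∑ j, ∑ l, F₀ i j * F₁ j l * F₂ l i * (sg (k + 1) (val (k + 1) i)
        * sg (k + 1) (val (k + 1) j) * sg (k + 1) (val (k + 1) l)) := by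
    intro F₀ F₁ F₂
    rw [rad_diag, T3_eq_sum]
  refine Eq.trans ?_ (key (bl (k + 1) A m.1 m.2.1) (bl (k + 1) B m.2.1 m.2.2)
      (bl (k + 1) C m.1 m.2.2)ᵀ).symm
  rw [tri, sum_iv]
  change ∑ i : Ix k ⊕ Ix k, _ = _
  refine sum_congr rfl fun i _ => ?_
  rw [sum_iv]
  change ∑ i : Ix k ⊕ Ix k, _ = _
  refine sum_congr rfl fun j _ => ?_
  rw [sum_iv]
  change ∑ i : Ix k ⊕ Ix k, _ = _
  refine sum_congr rfl fun l _ => ?_
  have e1 := hs_val k m.1 i
  have e2 := hs_val k m.2.1 j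
  have e3 := hs_val k m.2.2 l
  rw [e1, e2, e3]
  change _ = A (2 ^ (k + 1) * m.1 + val (k + 1) i) (2 ^ (k + 1) * m.2.1 + val (k + 1) j)
    * B (2 ^ (k + 1) * m.2.1 + val (k + 1) j) (2 ^ (k + 1) * m.2.2 + val (k + 1) l)
    * C (2 ^ (k + 1) * m.1 + val (k + 1) i) (2 ^ (k + 1) * m.2.2 + val (k + 1) l)
    * (sg (k + 1) (val (k + 1) i) * sg (k + 1) (val (k + 1) j) * sg (k + 1) (val (k + 1) l))
  ring

/-! ### terms of the functional -/

theorem Xg_gramC (k : ℕ) {μ : ℝ} (hμ : 0 ≤ μ) (A : ℤ → ℤ → ℝ) (n m : ℤ) :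
    Xg k k (fun x y => Real.sqrt μ * A x y) n m = gramC (μ * (4 ^ k)⁻¹) (bl k A n m) := by
  have e : smp k k (fun x y => Real.sqrt μ * A x y) (2 ^ k * n) (2 ^ k * m)
      = Real.sqrt μ • bl k A n m := by
    ext i j; simp [smp, bl]
  rw [Xg, e, gramC, transpose_smul, Matrix.smul_mul, Matrix.mul_smul, smul_smul, smul_smul]
  congr 1
  have h4 : (2 : ℝ) ^ k * 2 ^ k = 4 ^ k := by rw [← mul_pow]; norm_num
  rw [h4, mul_assoc, Real.mul_self_sqrt hμ, mul_comm]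

theorem Xg_gramR (k : ℕ) {μ : ℝ} (hμ : 0 ≤ μ) (A : ℤ → ℤ → ℝ) (n m : ℤ) :
    Xg k k (fun x y => Real.sqrt μ * A y x) n m = gramR (μ * (4 ^ k)⁻¹) (bl k A m n) := by
  have h := Xg_gramC k hμ (fun x y => A y x) n m
  rw [bl_swap] at h
  rw [h, gramC, gramR, transpose_transpose]

theorem gramC_transpose {n : Type*} [Fintype n] (μ : ℝ) (F : Matrix n n ℝ) :
    gramC μ Fᵀ = gramR μ F := by rw [gramC, gramR, transpose_transpose]

theorem gramR_transpose {n : Type*} [Fintype n] (μ : ℝ) (F : Matrix n n ℝ) :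
    gramR μ Fᵀ = gramC μ F := by rw [gramC, gramR, transpose_transpose]

theorem tr_rot {n : Type*} [Fintype n] (r P Q : Matrix n n ℝ) :
    (P * (r * Q * r)).trace = (Q * (r * P * r)).trace := by
  rw [show P * (r * Q * r) = (P * r) * (Q * r) by simp only [Matrix.mul_assoc], trace_mul_comm]
  simp only [Matrix.mul_assoc]

/-! ### planes -/

/-- boxes of scale `k` on the plane `m₁ + m₂ + m₃ = c` inside the root -/
def bx3 (N : ℕ) (R : Pt) (k : ℕ) (c : ℤ) : Finset Pt :=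
  (iv (N - k) R.1 ×ˢ iv (N - k) R.2.1 ×ˢ iv (N - k) R.2.2).filter
    fun m => m.1 + m.2.1 + m.2.2 = c

theorem sum_bx3 (N : ℕ) (R : Pt) (k : ℕ) (c : ℤ) (g : Pt → ℝ) :
    ∑ m ∈ bx3 N R k c, g m = ∑ m1 ∈ iv (N - k) R.1, ∑ m2 ∈ iv (N - k) R.2.1,
      ∑ m3 ∈ iv (N - k) R.2.2, if m1 + m2 + m3 = c then g (m1, m2, m3) else 0 := by
  rw [bx3, sum_filter, sum_product]
  refine sum_congr rfl fun m1 _ => ?_
  rw [sum_product]

theorem sum_ite_plane (s : Finset ℤ) (a c : ℤ) (f : ℤ → ℝ) :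
    (∑ x ∈ s, if a + x = c then f x else 0) = if c - a ∈ s then f (c - a) else 0 := by
  have h : ∀ x, (a + x = c) ↔ (c - a = x) := fun x => by
    constructor <;> intro h <;> linarith
  simp only [h]
  rw [sum_ite_eq]

theorem sum_bx3_12 (N : ℕ) (R : Pt) (k : ℕ) (c : ℤ) (g : Pt → ℝ) :
    ∑ m ∈ bx3 N R k c, g m = ∑ m1 ∈ iv (N - k) R.1, ∑ m2 ∈ iv (N - k) R.2.1,
      if c - m1 - m2 ∈ iv (N - k) R.2.2 then g (m1, m2, c - m1 - m2) else 0 := by
  rw [sum_bx3]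
  refine sum_congr rfl fun m1 _ => sum_congr rfl fun m2 _ => ?_
  rw [sum_ite_plane, show c - (m1 + m2) = c - m1 - m2 by ring]

theorem sum_bx3_21 (N : ℕ) (R : Pt) (k : ℕ) (c : ℤ) (g : Pt → ℝ) :
    ∑ m ∈ bx3 N R k c, g m = ∑ m2 ∈ iv (N - k) R.2.1, ∑ m1 ∈ iv (N - k) R.1,
      if c - m2 - m1 ∈ iv (N - k) R.2.2 then g (m1, m2, c - m2 - m1) else 0 := by
  rw [sum_bx3_12, sum_comm]
  refine sum_congr rfl fun m2 _ => sum_congr rfl fun m1 _ => ?_
  rw [show c - m1 - m2 = c - m2 - m1 by ring]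

theorem sum_bx3_32 (N : ℕ) (R : Pt) (k : ℕ) (c : ℤ) (g : Pt → ℝ) :
    ∑ m ∈ bx3 N R k c, g m = ∑ m3 ∈ iv (N - k) R.2.2, ∑ m2 ∈ iv (N - k) R.2.1,
      if c - m3 - m2 ∈ iv (N - k) R.1 then g (c - m3 - m2, m2, m3) else 0 := by
  rw [sum_bx3, sum_comm]
  have h : ∀ m2 : ℤ, (∑ m1 ∈ iv (N - k) R.1, ∑ m3 ∈ iv (N - k) R.2.2,
      if m1 + m2 + m3 = c then g (m1, m2, m3) else 0)
      = ∑ m3 ∈ iv (N - k) R.2.2, if c - m3 - m2 ∈ iv (N - k) R.1 then
        g (c - m3 - m2, m2, m3) else 0 := by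
    intro m2
    rw [sum_comm]
    refine sum_congr rfl fun m3 _ => ?_
    have := sum_ite_plane (iv (N - k) R.1) (m2 + m3) c (fun m1 => g (m1, m2, m3))
    rw [show c - (m2 + m3) = c - m3 - m2 by ring] at this
    rw [← this]
    refine sum_congr rfl fun m1 _ => ?_
    rw [show m1 + m2 + m3 = m2 + m3 + m1 by ring]
  simp only [h]
  rw [sum_comm]

end

end Vale.Agent.P141.PL.H804
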