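import Vale.Agent.P141.PL.H804.Tan
import Mathlib.Data.Matrix.ColumnRowPartitioned

/-!
# The joint log-determinant energy of a pair, with unequal weights
-/

set_option linter.unusedSectionVars false

namespace Vale.Agent.P141.PL.H804

open Matrix Vale.Agent.P075

variable {m n p : Type*} [Fintype m] [DecidableEq m] [Fintype n] [DecidableEq n]
  [Fintype p] [DecidableEq p]

/-- joint energy, rectangular version -/
noncomputable def GJ (μ ν : ℝ) (F : Matrix m n ℝ) (H : Matrix n p ℝ) : ℝ :=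
  GX (μ • (Fᵀ * F) + ν • (H * Hᵀ))

/-- the concatenated matrix -/
noncomputable def cat (μ ν : ℝ) (F : Matrix m n ℝ) (H : Matrix n p ℝ) : Matrix (m ⊕ p) n ℝ :=
  fromRows (Real.sqrt μ • F) (Real.sqrt ν • Hᵀ)

theorem cat_gram {μ ν : ℝ} (hμ : 0 ≤ μ) (hν : 0 ≤ ν) (F : Matrix m n ℝ) (H : Matrix n p ℝ) :
    (cat μ ν F H)ᵀ * cat μ ν F H = μ • (Fᵀ * F) + ν • (H * Hᵀ) := by
  rw [cat, transpose_fromRows, fromCols_mul_fromRows]
  simp only [transpose_smul, transpose_transpose, Matrix.smul_mul, Matrix.mul_smul, smul_smul,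
    Real.mul_self_sqrt hμ, Real.mul_self_sqrt hν]

theorem cat_add (μ ν : ℝ) (F F' : Matrix m n ℝ) (H H' : Matrix n p ℝ) :
    cat μ ν (F + F') (H + H') = cat μ ν F H + cat μ ν F' H' := by
  ext i j
  rcases i with i | i <;> simp [cat]

theorem cat_smul (μ ν c : ℝ) (F : Matrix m n ℝ) (H : Matrix n p ℝ) :
    cat μ ν (c • F) (c • H) = c • cat μ ν F H := by
  ext i j
  rcases i with i | i <;> simp [cat, mul_left_comm]

/-- linear part of the joint energy -/
noncomputable def dJ (μ ν : ℝ) (F : Matrix m n ℝ) (H : Matrix n p ℝ) (F' : Matrix m n ℝ)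
    (H' : Matrix n p ℝ) : ℝ := dE (cat μ ν F H) (cat μ ν F' H')

theorem dJ_smul (μ ν c : ℝ) (F F' : Matrix m n ℝ) (H H' : Matrix n p ℝ) :
    dJ μ ν F H (c • F') (c • H') = c * dJ μ ν F H F' H' := by
  rw [dJ, cat_smul, dE_smul, dJ]

theorem GJ_lower {μ ν : ℝ} (hμ : 0 ≤ μ) (hν : 0 ≤ ν) (F F' : Matrix m n ℝ) (H H' : Matrix n p ℝ) :
    GJ μ ν F H + dJ μ ν F H F' H' ≤ GJ μ ν (F + F') (H + H') := by
  have h := GX_lower (cat μ ν F H) (cat μ ν F' H')
  rwa [← cat_add, cat_gram hμ hν, cat_gram hμ hν] at h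

theorem GJ_upper {μ ν : ℝ} (hμ : 0 ≤ μ) (hν : 0 ≤ ν) (F F' : Matrix m n ℝ) (H H' : Matrix n p ℝ) :
    GJ μ ν (F + F') (H + H') ≤ GJ μ ν F H + dJ μ ν F H F' H'
      + 2 * (μ * (F'ᵀ * F').trace + ν * (H' * H'ᵀ).trace) := by
  have h := GX_upper (cat μ ν F H) (cat μ ν F' H')
  rwa [← cat_add, cat_gram hμ hν, cat_gram hμ hν, cat_gram hμ hν, trace_add, trace_smul,
    trace_smul, smul_eq_mul, smul_eq_mul] at h

theorem GJ_nonneg {μ ν : ℝ} (hμ : 0 ≤ μ) (hν : 0 ≤ ν) (F : Matrix m n ℝ) (H : Matrix n p ℝ) :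
    0 ≤ GJ μ ν F H := GX_nonneg (((gram_psd F).smul hμ).add ((gram_psd' H).smul hν))

/-- a nonnegative function with a quadratic upper bound has a Lipschitz square root -/
theorem sqrt_lip {V : Type*} [AddCommGroup V] [Module ℝ V] {g Q : V → ℝ} {l : V → V → ℝ}
    (hg : ∀ f, 0 ≤ g f) (hQ : ∀ h, 0 ≤ Q h) (hQ2 : ∀ (t : ℝ) (h : V), Q (t • h) = t ^ 2 * Q h)
    (hl : ∀ (f : V) (t : ℝ) (h : V), l f (t • h) = t * l f h)
    (hub : ∀ f h, g (f + h) ≤ g f + l f h + Q h) (f h : V) :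
    Real.sqrt (g (f + h)) ≤ Real.sqrt (g f) + Real.sqrt (Q h) := by
  have key : ∀ t : ℝ, 0 ≤ Q h * (t * t) + l f h * t + g f := by
    intro t
    have h1 := hg (f + t • h)
    have h2 := hub f (t • h)
    rw [hQ2, hl] at h2
    nlinarith
  have hd := discrim_le_zero key
  rw [discrim] at hd
  have h1 : l f h ≤ 2 * (Real.sqrt (g f) * Real.sqrt (Q h)) := by
    have h2 : (l f h) ^ 2 ≤ (2 * (Real.sqrt (g f) * Real.sqrt (Q h))) ^ 2 := by
      have e : (2 * (Real.sqrt (g f) * Real.sqrt (Q h))) ^ 2 = 4 * Q h * g f := by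
        rw [mul_pow, mul_pow, Real.sq_sqrt (hg f), Real.sq_sqrt (hQ h)]; ring
      rw [e]; linarith
    exact (abs_le_of_sq_le_sq' h2 (by positivity)).2
  refine Real.sqrt_le_iff.2 ⟨by positivity, ?_⟩
  have h3 := hub f h
  have h4 := Real.sq_sqrt (hg f)
  have h5 := Real.sq_sqrt (hQ h)
  nlinarith

/-- monotonicity of `φ` -/
theorem phi_mono {X Y : Matrix n n ℝ} (hX : X.PosSemidef) (hY : Y.PosSemidef) :
    (phi (X + Y) - phi X).PosSemidef := by
  have h := res_anti hX hY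
  have e : phi (X + Y) - phi X = res X - res (X + Y) := by rw [phi, phi]; abel
  rwa [e]

/-- mixed term of the pair is dominated by the term of the sum -/
theorem mixed_le {X Y r : Matrix n n ℝ} (hX : X.PosSemidef) (hY : Y.PosSemidef) (hr : rᵀ = r) :
    (phi X * (r * phi Y * r)).trace ≤ (phi (X + Y) * (r * phi (X + Y) * r)).trace := by
  have h1 : (phi X * (r * phi Y * r)).trace ≤ (phi (X + Y) * (r * phi Y * r)).trace :=
    trace_mul_le_left (psd_conj_symm (phi_psd hY) hr) (phi_mono hX hY)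
  have h2 : (phi (X + Y) * (r * phi Y * r)).trace
      ≤ (phi (X + Y) * (r * phi (X + Y) * r)).trace := by
    refine trace_mul_le_right (phi_psd (hX.add hY)) ?_
    have h := phi_mono hY hX
    rw [add_comm Y X] at h
    have h' := psd_conj_symm h hr
    rwa [Matrix.mul_sub, Matrix.sub_mul] at h'
  exact h1.trans h2

/-- joint step, abstract form: any decomposition of the diagonal blocks of the sum -/
theorem joint_abs {X Y : Matrix (m ⊕ m) (m ⊕ m) ℝ} {Z00 Z01 Z10 Z11 : Matrix m m ℝ}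
    (hX : X.PosSemidef) (hY : Y.PosSemidef)
    (h00 : Z00.PosSemidef) (h01 : Z01.PosSemidef) (h10 : Z10.PosSemidef) (h11 : Z11.PosSemidef)
    (hs : (X + Y) + rad m * (X + Y) * rad m
      = bd ((1 / 2 : ℝ) • (Z00 + Z10)) ((1 / 2 : ℝ) • (Z01 + Z11))) :
    GX (X + Y) + (1 / 2) * (phi X * (rad m * phi Y * rad m)).trace
    ≤ (1 / 4) * (GX Z00 + GX Z10 + GX Z01 + GX Z11) := by
  have h1 := GX_split (hX.add hY) h00 h01 h10 h11 hs
  have h2 := mixed_le hX hY (rad_symm (m := m))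
  have p1 := (delt_psd h00 h10).trace_nonneg
  have p2 := (delt_psd h01 h11).trace_nonneg
  linarith

/-- main term with two weights -/
noncomputable def M2 (r : Matrix n n ℝ) (μ ν : ℝ) (F H : Matrix n n ℝ) : ℝ :=
  (phi (gramC μ F) * (r * phi (gramR ν H) * r)).trace

theorem GJ_eq (μ ν : ℝ) (F H : Matrix n n ℝ) : GJ μ ν F H = GX (gramC μ F + gramR ν H) := rfl

theorem M2_nonneg {r : Matrix n n ℝ} (hr : rᵀ = r) {μ ν : ℝ} (hμ : 0 ≤ μ) (hν : 0 ≤ ν)
    (F H : Matrix n n ℝ) : 0 ≤ M2 r μ ν F H :=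
  trace_mul_nonneg (phi_psd (gramC_psd hμ F)) (psd_conj_symm (phi_psd (gramR_psd hν H)) hr)

/-- One step for the joint energy, any pairing `π` of the outer halves. -/
theorem joint_step {μ ν : ℝ} (hμ : 0 ≤ μ) (hν : 0 ≤ ν) (F H : Matrix (m ⊕ m) (m ⊕ m) ℝ)
    (π : Bool → Bool → Bool) (hπ : ∀ b, π b true = !(π b false)) :
    GJ μ ν F H + (1 / 2) * M2 (rad m) μ ν F H
      ≤ (1 / 4) * ∑ a : Bool, ∑ b : Bool, GJ (4 * μ) (4 * ν) (blk F a b) (blk H b (π b a)) := by
  have h4 : 0 ≤ 4 * μ := by linarith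
  have k4 : 0 ≤ 4 * ν := by linarith
  have hp : ∀ a b : Bool, (gramC (4 * μ) (blk F a b)
      + gramR (4 * ν) (blk H b (π b a))).PosSemidef := fun a b =>
    (gramC_psd h4 _).add (gramR_psd k4 _)
  have hsum : ∀ b : Bool, gramR (4 * ν) (blk H b (π b false)) + gramR (4 * ν) (blk H b (π b true))
      = gramR (4 * ν) (blk H b false) + gramR (4 * ν) (blk H b true) := by
    intro b
    rw [hπ b]
    cases π b false
    · rfl
    · rw [add_comm]; rfl
  have hs : (gramC μ F + gramR ν H) + rad m * (gramC μ F + gramR ν H) * rad m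
      = bd ((1 / 2 : ℝ) • ((gramC (4 * μ) (blk F false false)
            + gramR (4 * ν) (blk H false (π false false)))
          + (gramC (4 * μ) (blk F true false) + gramR (4 * ν) (blk H false (π false true)))))
        ((1 / 2 : ℝ) • ((gramC (4 * μ) (blk F false true)
            + gramR (4 * ν) (blk H true (π true false)))
          + (gramC (4 * μ) (blk F true true) + gramR (4 * ν) (blk H true (π true true))))) := by
    have e1 := gramC_blk μ F
    have e2 := gramR_blk ν H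
    have e3 : (gramC μ F + gramR ν H) + rad m * (gramC μ F + gramR ν H) * rad m
        = (gramC μ F + rad m * gramC μ F * rad m) + (gramR ν H + rad m * gramR ν H * rad m) := by
      rw [Matrix.mul_add, Matrix.add_mul]; abel
    rw [e3, e1, e2, ← hsum false, ← hsum true]
    simp only [bd, fromBlocks_add, add_zero]
    congr 1 <;> module
  have h := joint_abs (gramC_psd hμ F) (gramR_psd hν H) (hp false false) (hp false true)
    (hp true false) (hp true true) hs
  simp only [Fintype.sum_bool, M2, GJ_eq]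
  linarith

end Vale.Agent.P141.PL.H804
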