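import Vale.Agent.P141.PL.H804.Joint

/-!
# Levels with unequal cuts for the trilinear trace form
-/

set_option linter.unusedSectionVars false

namespace Vale.Agent.P141.PL.H804

open Matrix Vale.Agent.P075

variable {n : Type*} [Fintype n] [DecidableEq n]

/-- `H` is dominated by `c` times the saturated Gram matrices of `F` at weight `μ` -/
def Adc (c μ : ℝ) (F H : Matrix n n ℝ) : Prop :=
  (c • phi (gramC μ F) - gramC μ H).PosSemidef ∧ (c • phi (gramR μ F) - gramR μ H).PosSemidef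

/-- difference of consecutive regularisations -/
noncomputable def dreg (μ : ℝ) (F : Matrix n n ℝ) : Matrix n n ℝ := reg μ F - reg (4 * μ) F

theorem adc_of_adm {μ : ℝ} {F H : Matrix n n ℝ} (h : Adm μ F H) : Adc 1 μ F H := by
  rw [Adc, one_smul, one_smul]; exact h

/-- parallelogram domination -/
theorem gram_sub_le {μ : ℝ} (hμ : 0 ≤ μ) (A B : Matrix n n ℝ) :
    ((2 : ℝ) • gramC μ A + (2 : ℝ) • gramC μ B - gramC μ (A - B)).PosSemidef := by
  have e : (2 : ℝ) • gramC μ A + (2 : ℝ) • gramC μ B - gramC μ (A - B) = gramC μ (A + B) := by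
    simp only [gramC, transpose_sub, transpose_add, Matrix.sub_mul, Matrix.mul_sub,
      Matrix.add_mul, Matrix.mul_add]
    module
  rw [e]; exact gramC_psd hμ _

theorem gramR_sub_le {μ : ℝ} (hμ : 0 ≤ μ) (A B : Matrix n n ℝ) :
    ((2 : ℝ) • gramR μ A + (2 : ℝ) • gramR μ B - gramR μ (A - B)).PosSemidef := by
  have e : (2 : ℝ) • gramR μ A + (2 : ℝ) • gramR μ B - gramR μ (A - B) = gramR μ (A + B) := by
    simp only [gramR, transpose_sub, transpose_add, Matrix.sub_mul, Matrix.mul_sub,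
      Matrix.add_mul, Matrix.mul_add]
    module
  rw [e]; exact gramR_psd hμ _

theorem adc_sub {c d μ : ℝ} (hμ : 0 ≤ μ) {F A B : Matrix n n ℝ} (hA : Adc c μ F A)
    (hB : Adc d μ F B) : Adc (2 * c + 2 * d) μ F (A - B) := by
  constructor
  · have h := ((hA.1.smul (α := ℝ) (show (0 : ℝ) ≤ 2 by norm_num)).add
      (hB.1.smul (α := ℝ) (show (0 : ℝ) ≤ 2 by norm_num))).add (gram_sub_le hμ A B)
    convert h using 1
    module
  · have h := ((hA.2.smul (α := ℝ) (show (0 : ℝ) ≤ 2 by norm_num)).add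
      (hB.2.smul (α := ℝ) (show (0 : ℝ) ≤ 2 by norm_num))).add (gramR_sub_le hμ A B)
    convert h using 1
    module

theorem adc_dreg {μ : ℝ} (hμ : 0 ≤ μ) (F : Matrix n n ℝ) : Adc 4 μ F (dreg μ F) := by
  have h := adc_sub hμ (adc_of_adm (adm_one hμ F)) (adc_of_adm (adm_four hμ F))
  have e : (2 : ℝ) * 1 + 2 * 1 = 4 := by norm_num
  rwa [e] at h

/-- squared Cauchy-Schwarz for traces -/
theorem trace_mul_sq_le (U V : Matrix n n ℝ) :
    ((U * V).trace) ^ 2 ≤ (U * Uᵀ).trace * (V * Vᵀ).trace := by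
  have hu : 0 ≤ (U * Uᵀ).trace := (psd_mul_transpose U).trace_nonneg
  have hv : 0 ≤ (V * Vᵀ).trace := (psd_mul_transpose V).trace_nonneg
  have key : ∀ t : ℝ, 0 ≤ (V * Vᵀ).trace * (t * t) + (-2 * (U * V).trace) * t + (U * Uᵀ).trace := by
    intro t
    have h := (psd_mul_transpose (Uᵀ - t • V)).trace_nonneg
    have h1 : (Uᵀ - t • V) * (Uᵀ - t • V)ᵀ
        = (Uᵀ * U) - t • (Uᵀ * Vᵀ) - t • (V * U) + (t * t) • (V * Vᵀ) := by
      simp only [transpose_sub, transpose_smul, transpose_transpose, Matrix.mul_sub,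
        Matrix.sub_mul, Matrix.mul_smul, Matrix.smul_mul]
      module
    have h2 : (Uᵀ * Vᵀ).trace = (U * V).trace := by
      rw [← transpose_mul, trace_transpose, trace_mul_comm]
    rw [h1, trace_add, trace_sub, trace_sub, trace_smul, trace_smul, trace_smul,
      trace_mul_comm Uᵀ U, trace_mul_comm V U, h2] at h
    simp only [smul_eq_mul] at h
    linarith
  have hd := discrim_le_zero key
  rw [discrim] at hd
  linarith

/-- The trilinear form with a factorised first factor: unequal weights `α, β, γ`. -/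
theorem T3_fac_sq_le {r : Matrix n n ℝ} (hr : rᵀ = r) (hr2 : r * r = 1) {α β γ c d : ℝ}
    (hα : 0 < α) (hβ : 0 < β) (hγ : 0 < γ) (hc : 0 ≤ c) (hd : 0 ≤ d)
    {F₀ F₁ F₂ H₁ H₂ D A B : Matrix n n ℝ} (hD : D = A * B)
    (hAA : (phi (gramR α F₀) - gramR α A).PosSemidef) (hBs : Bᵀ = B)
    (hBB : ((9 / 4 : ℝ) • phi (gramC α F₀) - B * B).PosSemidef)
    (h1 : Adc c β F₁ H₁) (h2 : Adc d γ F₂ H₂) :
    (T3 r D H₁ H₂) ^ 2
      ≤ (9 / 4) * c * d * (α * β * γ)⁻¹ * (M2 r γ α F₂ F₀ * M2 r α β F₀ F₁) := by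
  have hμ0 : 0 ≤ α := hα.le
  have hT : T3 r D H₁ H₂ = ((H₂ * r * A) * (B * r * H₁ * r)).trace := by
    rw [hD, T3]
    rw [show r * (A * B) * r * H₁ * r * H₂ = (r * A * B * r * H₁ * r) * H₂ by
      simp only [Matrix.mul_assoc], trace_mul_comm]
    congr 1
    simp only [Matrix.mul_assoc]
  rw [hT]
  clear hT hD
  refine (trace_mul_sq_le _ _).trans ?_
  have n1 : 0 ≤ ((H₂ * r * A) * (H₂ * r * A)ᵀ).trace := (psd_mul_transpose _).trace_nonneg
  have n2 : 0 ≤ ((B * r * H₁ * r) * (B * r * H₁ * r)ᵀ).trace := (psd_mul_transpose _).trace_nonneg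
  have s1 : γ * α * ((H₂ * r * A) * (H₂ * r * A)ᵀ).trace ≤ d * M2 r γ α F₂ F₀ := by
    have e1 : γ * α * ((H₂ * r * A) * (H₂ * r * A)ᵀ).trace
        = (gramC γ H₂ * (r * gramR α A * r)).trace := by
      rw [transpose_mul, transpose_mul, hr, gramC, gramR]
      rw [show H₂ * r * A * (Aᵀ * (r * H₂ᵀ)) = (H₂ * (r * A * Aᵀ * r)) * H₂ᵀ by
        simp only [Matrix.mul_assoc], trace_mul_comm]
      simp only [Matrix.mul_smul, Matrix.smul_mul, trace_smul, smul_eq_mul, Matrix.mul_assoc]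
      ring
    rw [e1, M2]
    have i1 : (gramC γ H₂ * (r * gramR α A * r)).trace
        ≤ ((d • phi (gramC γ F₂)) * (r * gramR α A * r)).trace :=
      trace_mul_le_left (psd_conj_symm (gramR_psd hμ0 A) hr) h2.1
    have i2 : (phi (gramC γ F₂) * (r * gramR α A * r)).trace
        ≤ (phi (gramC γ F₂) * (r * phi (gramR α F₀) * r)).trace := by
      refine trace_mul_le_right (phi_psd (gramC_psd hγ.le F₂)) ?_
      have := psd_conj_symm hAA hr
      rwa [Matrix.mul_sub, Matrix.sub_mul] at this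
    rw [Matrix.smul_mul, trace_smul, smul_eq_mul] at i1
    exact i1.trans (mul_le_mul_of_nonneg_left i2 hd)
  have s2 : β * ((B * r * H₁ * r) * (B * r * H₁ * r)ᵀ).trace ≤ (9 / 4) * c * M2 r α β F₀ F₁ := by
    have e1 : β * ((B * r * H₁ * r) * (B * r * H₁ * r)ᵀ).trace
        = ((B * B) * (r * gramR β H₁ * r)).trace := by
      rw [transpose_mul, transpose_mul, transpose_mul, hr, hBs, gramR]
      rw [show B * r * H₁ * r * (r * (H₁ᵀ * (r * B))) = (B * r * H₁ * (r * r) * H₁ᵀ * r) * B by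
        simp only [Matrix.mul_assoc], hr2, trace_mul_comm]
      simp only [Matrix.mul_smul, Matrix.smul_mul, trace_smul, smul_eq_mul, Matrix.mul_assoc,
        Matrix.one_mul]
    rw [e1, M2]
    have i1 : ((B * B) * (r * gramR β H₁ * r)).trace
        ≤ (((9 / 4 : ℝ) • phi (gramC α F₀)) * (r * gramR β H₁ * r)).trace :=
      trace_mul_le_left (psd_conj_symm (gramR_psd hβ.le H₁) hr) hBB
    have i2 : (phi (gramC α F₀) * (r * gramR β H₁ * r)).trace
        ≤ (phi (gramC α F₀) * (r * (c • phi (gramR β F₁)) * r)).trace := by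
      refine trace_mul_le_right (phi_psd (gramC_psd hμ0 F₀)) ?_
      have := psd_conj_symm h1.2 hr
      rwa [Matrix.mul_sub, Matrix.sub_mul] at this
    rw [Matrix.smul_mul, trace_smul, smul_eq_mul] at i1
    rw [Matrix.mul_smul, Matrix.smul_mul, Matrix.mul_smul, trace_smul, smul_eq_mul] at i2
    nlinarith
  generalize ((H₂ * r * A) * (H₂ * r * A)ᵀ).trace = t1 at *
  generalize ((B * r * H₁ * r) * (B * r * H₁ * r)ᵀ).trace = t2 at *
  have hm1 : 0 ≤ M2 r γ α F₂ F₀ := M2_nonneg hr hγ.le hμ0 _ _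
  have hm2 : 0 ≤ M2 r α β F₀ F₁ := M2_nonneg hr hμ0 hβ.le _ _
  have hmul : (γ * α * t1) * (β * t2) ≤ (d * M2 r γ α F₂ F₀) * ((9 / 4) * c * M2 r α β F₀ F₁) :=
    mul_le_mul s1 s2 (by positivity) (by positivity)
  have e : t1 * t2 = (α * β * γ)⁻¹ * ((γ * α * t1) * (β * t2)) := by
    field_simp
  rw [e]
  have hp : 0 ≤ (α * β * γ)⁻¹ := by positivity
  calc (α * β * γ)⁻¹ * ((γ * α * t1) * (β * t2))
      ≤ (α * β * γ)⁻¹ * ((d * M2 r γ α F₂ F₀) * ((9 / 4) * c * M2 r α β F₀ F₁)) :=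
        mul_le_mul_of_nonneg_left hmul hp
    _ = _ := by ring

/-- The trilinear form with the first factor at a level: unequal weights `α, β, γ`. -/
theorem dreg_fac {α : ℝ} (hα : 0 < α) (F₀ : Matrix n n ℝ) :
    ∃ A B : Matrix n n ℝ, dreg α F₀ = A * B ∧ (phi (gramR α F₀) - gramR α A).PosSemidef ∧
      Bᵀ = B ∧ ((9 / 4 : ℝ) • phi (gramC α F₀) - B * B).PosSemidef := by
  have hμ0 : 0 ≤ α := hα.le
  have hX := gramC_psd hμ0 F₀
  have h4 : 0 ≤ 4 * α := by linarith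
  have hX4 := gramC_psd h4 F₀
  set P := res (gramC α F₀) with hP
  set Q := res (gramC (4 * α) F₀) with hQ
  set B : Matrix n n ℝ := (3 / 4 : ℝ) • phi (gramC (4 * α) F₀) with hB
  have hBs : Bᵀ = B := by rw [hB, transpose_smul, phi_symm hX4]
  set A : Matrix n n ℝ := F₀ * P with hA
  have hD : dreg α F₀ = A * B := by
    have e1 : P - Q = P * ((3 : ℝ) • gramC α F₀) * Q := by
      have q : gramC (4 * α) F₀ * Q = 1 - Q := mul_res hX4
      have p : P * gramC α F₀ = 1 - P := res_mul hX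
      have q' : (4 : ℝ) • (gramC α F₀ * Q) = 1 - Q := by
        rw [← Matrix.smul_mul, ← gramC_smul]; exact q
      have e : P * ((3 : ℝ) • gramC α F₀) * Q
          = P * ((4 : ℝ) • (gramC α F₀ * Q)) - (P * gramC α F₀) * Q := by
        simp only [Matrix.mul_smul, Matrix.smul_mul, Matrix.mul_assoc]
        module
      rw [e, q', p]; noncomm_ring
    have e2 : B = ((3 : ℝ) • gramC α F₀) * Q := by
      rw [hB, ← mul_res_phi hX4, gramC_smul, Matrix.smul_mul, Matrix.smul_mul, hQ, gramC_smul]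
      module
    rw [dreg, reg, reg, ← Matrix.mul_sub]
    change F₀ * (P - Q) = A * B
    rw [e1, e2, hA, Matrix.mul_assoc, Matrix.mul_assoc]
  have hAA : (phi (gramR α F₀) - gramR α A).PosSemidef := (adm_one hμ0 F₀).2
  have hBB : ((9 / 4 : ℝ) • phi (gramC α F₀) - B * B).PosSemidef := by
    have e : (9 / 4 : ℝ) • phi (gramC α F₀) - B * B
        = (9 / 16 : ℝ) • (((4 : ℝ) • phi (gramC α F₀) - phi ((4 : ℝ) • gramC α F₀))
          + (phi (gramC (4 * α) F₀) - phi (gramC (4 * α) F₀) * phi (gramC (4 * α) F₀))) := by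
      rw [hB, ← gramC_smul, Matrix.smul_mul, Matrix.mul_smul, smul_smul]
      module
    rw [e]
    exact ((phi_four hX).add (phi_sub_sq_psd hX4)).smul (by norm_num)
  exact ⟨A, B, hD, hAA, hBs, hBB⟩

/-- telescoping of the regularisations -/
theorem sum_dreg (μ : ℝ) (F : Matrix n n ℝ) (N : ℕ) :
    ∑ a ∈ Finset.range N, dreg (4 ^ a * μ) F = reg μ F - reg (4 ^ N * μ) F := by
  induction N with
  | zero => simp
  | succ N ih =>
    rw [Finset.sum_range_succ, ih, dreg]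
    have : 4 * (4 ^ N * μ) = 4 ^ (N + 1) * μ := by ring
    rw [this]; abel

/-- Hilbert-Schmidt bound with one factor in operator norm -/
theorem T3_op_sq_le {r : Matrix n n ℝ} (hr : rᵀ = r) (hr2 : r * r = 1) {c : ℝ}
    {F₀ F₁ F₂ : Matrix n n ℝ} (h : (c • (1 : Matrix n n ℝ) - F₀ᵀ * F₀).PosSemidef) :
    (T3 r F₀ F₁ F₂) ^ 2 ≤ c * (F₁ᵀ * F₁).trace * (F₂ᵀ * F₂).trace := by
  have e : T3 r F₀ F₁ F₂ = ((F₂ * r) * (F₀ * r * F₁ * r)).trace := by
    rw [T3, show r * F₀ * r * F₁ * r * F₂ = (r * F₀ * r * F₁ * r) * F₂ by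
      simp only [Matrix.mul_assoc], trace_mul_comm]
    congr 1
    simp only [Matrix.mul_assoc]
  rw [e]
  refine (trace_mul_sq_le _ _).trans ?_
  have e1 : ((F₂ * r) * (F₂ * r)ᵀ).trace = (F₂ᵀ * F₂).trace := by
    rw [transpose_mul, hr, show F₂ * r * (r * F₂ᵀ) = F₂ * (r * r) * F₂ᵀ by
      simp only [Matrix.mul_assoc], hr2, Matrix.mul_one, trace_mul_comm]
  have e2 : ((F₀ * r * F₁ * r) * (F₀ * r * F₁ * r)ᵀ).trace
      = ((F₀ᵀ * F₀) * (r * (F₁ * F₁ᵀ) * r)).trace := by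
    rw [transpose_mul, transpose_mul, transpose_mul, hr]
    rw [show F₀ * r * F₁ * r * (r * (F₁ᵀ * (r * F₀ᵀ)))
        = (F₀ * r * F₁ * (r * r) * F₁ᵀ * r) * F₀ᵀ by simp only [Matrix.mul_assoc], hr2,
      trace_mul_comm]
    simp only [Matrix.mul_assoc, Matrix.one_mul]
  have e3 : ((F₀ᵀ * F₀) * (r * (F₁ * F₁ᵀ) * r)).trace
      ≤ ((c • (1 : Matrix n n ℝ)) * (r * (F₁ * F₁ᵀ) * r)).trace :=
    trace_mul_le_left (psd_conj_symm (psd_mul_transpose F₁) hr) h
  have e4 : ((c • (1 : Matrix n n ℝ)) * (r * (F₁ * F₁ᵀ) * r)).trace = c * (F₁ᵀ * F₁).trace := by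
    rw [Matrix.smul_mul, Matrix.one_mul, trace_smul, smul_eq_mul,
      show r * (F₁ * F₁ᵀ) * r = (r * (F₁ * F₁ᵀ)) * r by rfl, trace_mul_comm,
      ← Matrix.mul_assoc, hr2, Matrix.one_mul, trace_mul_comm]
  rw [e1, e2]
  have p2 : 0 ≤ (F₂ᵀ * F₂).trace := (psd_transpose_mul F₂).trace_nonneg
  calc (F₂ᵀ * F₂).trace * ((F₀ᵀ * F₀) * (r * (F₁ * F₁ᵀ) * r)).trace
      ≤ (F₂ᵀ * F₂).trace * (c * (F₁ᵀ * F₁).trace) :=
        mul_le_mul_of_nonneg_left (e3.trans e4.le) p2
    _ = _ := by ring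

/-- the regularisation has small operator norm -/
theorem reg_op {μ : ℝ} (hμ : 0 < μ) (F : Matrix n n ℝ) :
    ((1 / (4 * μ)) • (1 : Matrix n n ℝ) - (reg μ F)ᵀ * reg μ F).PosSemidef := by
  have hX := gramC_psd hμ.le F
  have hs := res_symm hX
  have e : (reg μ F)ᵀ * reg μ F
      = μ⁻¹ • (res (gramC μ F) - res (gramC μ F) * res (gramC μ F)) := by
    have h1 : gramC μ (reg μ F) = res (gramC μ F) - res (gramC μ F) * res (gramC μ F) := by
      rw [reg, gramC_mul hs, ← res_sub_sq hX]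
    rw [← h1, gramC, smul_smul, inv_mul_cancel₀ hμ.ne', one_smul]
  have e2 : (1 / (4 * μ)) • (1 : Matrix n n ℝ)
      - μ⁻¹ • (res (gramC μ F) - res (gramC μ F) * res (gramC μ F))
      = μ⁻¹ • (((1 / 2 : ℝ) • (1 : Matrix n n ℝ) - res (gramC μ F))
        * ((1 / 2 : ℝ) • (1 : Matrix n n ℝ) - res (gramC μ F))) := by
    have : (1 / (4 * μ)) = μ⁻¹ * (1 / 4) := by field_simp
    rw [this, mul_smul, ← smul_sub]
    congr 1
    simp only [Matrix.sub_mul, Matrix.mul_sub, Matrix.smul_mul, Matrix.mul_smul, Matrix.one_mul,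
      Matrix.mul_one]
    module
  rw [e, e2]
  refine (psd_sq ?_).smul (by positivity)
  rw [transpose_sub, transpose_smul, transpose_one, hs]

/-- `φ(c X) ≥ c' φ(X)`-type bound above the cut: `φ(X) ≤ X` -/
theorem phi_le_self {X : Matrix n n ℝ} (hX : X.PosSemidef) : (X - phi X).PosSemidef := by
  obtain ⟨B, hB, rfl⟩ := exists_sq hX
  have hBs := psd_isSymm hB
  have h1 := mul_res hX
  have h2 := res_mul hX
  -- `X - X (1+X)⁻¹ = X (1+X)⁻¹ X`
  have e : B * B - phi (B * B) = (B * B) * res (B * B) * (B * B) := by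
    rw [h1, Matrix.sub_mul, Matrix.one_mul, h2, phi]
  rw [e]
  exact psd_conj_symm (res_psd hX) (psd_isSymm hX)

end Vale.Agent.P141.PL.H804
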