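import Vale.Agent.P141.PL.H804.Lev

/-!
# Spectral pieces below a cap
-/

set_option linter.unusedSectionVars false

namespace Vale.Agent.P141.PL.H804

open Matrix Vale.Agent.P075

variable {n : Type*} [Fintype n] [DecidableEq n]

theorem res_one : res (1 : Matrix n n ℝ) = (1 / 2 : ℝ) • (1 : Matrix n n ℝ) := by
  rw [res]
  refine Matrix.inv_eq_left_inv ?_
  rw [Matrix.smul_mul, Matrix.one_mul]
  module

/-- below the cap the resolvent is at least one half -/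
theorem res_ge_half {X : Matrix n n ℝ} (hX : X.PosSemidef) (h1 : (1 - X).PosSemidef) :
    (res X - (1 / 2 : ℝ) • (1 : Matrix n n ℝ)).PosSemidef := by
  have h := res_anti hX h1
  rwa [add_sub_cancel, res_one] at h

theorem phi_ge_half {X : Matrix n n ℝ} (hX : X.PosSemidef) (h1 : (1 - X).PosSemidef) :
    (phi X - (1 / 2 : ℝ) • X).PosSemidef := by
  have hr := res_ge_half hX h1
  obtain ⟨S, hS, rfl⟩ := exists_sq hX
  have hSs := psd_isSymm hS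
  have h2 := phi_row S
  rw [hSs] at h2
  rw [← h2]
  have h3 := psd_conj_symm hr hSs
  have e : S * (res (S * S) - (1 / 2 : ℝ) • (1 : Matrix n n ℝ)) * S
      = S * res (S * S) * S - (1 / 2 : ℝ) • (S * S) := by
    rw [Matrix.mul_sub, Matrix.sub_mul, Matrix.mul_smul, Matrix.mul_one, Matrix.smul_mul]
  rwa [e] at h3

theorem sq_le_self {X : Matrix n n ℝ} (hX : X.PosSemidef) (h1 : (1 - X).PosSemidef) :
    (X - X * X).PosSemidef := by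
  obtain ⟨S, hS, rfl⟩ := exists_sq hX
  have hSs := psd_isSymm hS
  have h3 := psd_conj_symm h1 hSs
  have e : S * (1 - S * S) * S = S * S - S * S * (S * S) := by noncomm_ring
  rwa [e] at h3

/-- weight of the level `a` -/
noncomputable def lw (μ : ℝ) (a : ℕ) : ℝ := 4 ^ (a - 1) * μ

theorem lw_pos {μ : ℝ} (hμ : 0 < μ) (a : ℕ) : 0 < lw μ a := by unfold lw; positivity

theorem le_lw {μ : ℝ} (hμ : 0 ≤ μ) (a : ℕ) : μ ≤ lw μ a := by
  unfold lw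
  have : (1 : ℝ) ≤ 4 ^ (a - 1) := one_le_pow₀ (by norm_num)
  nlinarith

theorem lw_mul (c μ : ℝ) (a : ℕ) : lw (c * μ) a = c * lw μ a := by unfold lw; ring

/-- pieces of `F` below the cap `μ^{-1/2}` -/
noncomputable def pc (μ : ℝ) (F : Matrix n n ℝ) : ℕ → Matrix n n ℝ
  | 0 => F - reg μ F
  | (a + 1) => dreg (4 ^ a * μ) F

theorem sum_pc (μ : ℝ) (F : Matrix n n ℝ) (L : ℕ) :
    ∑ a ∈ Finset.range (L + 1), pc μ F a = F - reg (4 ^ L * μ) F := by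
  rw [Finset.sum_range_succ']
  have h := sum_dreg μ F L
  simp only [pc]
  rw [h]
  abel

theorem top_eq {μ : ℝ} (F : Matrix n n ℝ) : F - reg μ F = F * phi (gramC μ F) := by
  rw [reg, phi, Matrix.mul_sub, Matrix.mul_one]

theorem top_adc {μ : ℝ} (hμ : 0 ≤ μ) {F : Matrix n n ℝ} (h1 : (1 - gramC μ F).PosSemidef) :
    Adc 4 μ F (F - reg μ F) := by
  have hX := gramC_psd hμ F
  have hs := phi_symm hX
  rw [top_eq]
  constructor
  · rw [gramC_mul hs]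
    have e : (4 : ℝ) • phi (gramC μ F) - phi (gramC μ F) * gramC μ F * phi (gramC μ F)
        = (3 : ℝ) • phi (gramC μ F) + (phi (gramC μ F) - phi (gramC μ F) * phi (gramC μ F))
          + phi (gramC μ F) * (1 - gramC μ F) * phi (gramC μ F) := by
      rw [Matrix.mul_sub, Matrix.sub_mul, Matrix.mul_one]
      module
    rw [e]
    exact (((phi_psd hX).smul (by norm_num : (0 : ℝ) ≤ 3)).add (phi_sub_sq_psd hX)).add
      (psd_conj_symm h1 hs)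
  · rw [gramR_mul hs, phi_gramR hμ]
    have e : (4 : ℝ) • μ • (F * res (gramC μ F) * Fᵀ)
          - μ • (F * (phi (gramC μ F) * phi (gramC μ F)) * Fᵀ)
        = μ • (F * ((phi (gramC μ F) - phi (gramC μ F) * phi (gramC μ F))
          + (5 : ℝ) • (res (gramC μ F) - (1 / 2 : ℝ) • (1 : Matrix n n ℝ))
          + (3 / 2 : ℝ) • (1 : Matrix n n ℝ)) * Fᵀ) := by
      have e0 : (phi (gramC μ F) - phi (gramC μ F) * phi (gramC μ F))
          + (5 : ℝ) • (res (gramC μ F) - (1 / 2 : ℝ) • (1 : Matrix n n ℝ))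
          + (3 / 2 : ℝ) • (1 : Matrix n n ℝ)
          = (4 : ℝ) • res (gramC μ F) - phi (gramC μ F) * phi (gramC μ F) := by
        conv_lhs => rw [phi]
        rw [phi]; module
      rw [e0, Matrix.mul_sub, Matrix.sub_mul, Matrix.mul_smul, Matrix.smul_mul]
      module
    rw [e]
    refine PosSemidef.smul ?_ hμ
    refine psd_conj ?_ F
    exact ((phi_sub_sq_psd hX).add ((res_ge_half hX h1).smul (by norm_num : (0 : ℝ) ≤ 5))).add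
      (PosSemidef.one.smul (by norm_num : (0 : ℝ) ≤ 3 / 2))

theorem top_fac {μ : ℝ} (hμ : 0 < μ) {F : Matrix n n ℝ} (h1 : (1 - gramC μ F).PosSemidef) :
    ∃ A B : Matrix n n ℝ, F - reg μ F = A * B ∧ (phi (gramR μ F) - gramR μ A).PosSemidef ∧
      Bᵀ = B ∧ ((9 / 4 : ℝ) • phi (gramC μ F) - B * B).PosSemidef := by
  have hX := gramC_psd hμ.le F
  refine ⟨reg μ F, gramC μ F, ?_, (adm_one hμ.le F).2, psd_isSymm hX, ?_⟩
  · rw [top_eq, reg, Matrix.mul_assoc, res_mul_phi hX]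
  · have e : (9 / 4 : ℝ) • phi (gramC μ F) - gramC μ F * gramC μ F
        = (1 / 4 : ℝ) • phi (gramC μ F) + (2 : ℝ) • (phi (gramC μ F) - (1 / 2 : ℝ) • gramC μ F)
          + (gramC μ F - gramC μ F * gramC μ F) := by module
    rw [e]
    exact (((phi_psd hX).smul (by norm_num : (0 : ℝ) ≤ 1 / 4)).add
      ((phi_ge_half hX h1).smul (by norm_num : (0 : ℝ) ≤ 2))).add (sq_le_self hX h1)

theorem pc_adc {μ : ℝ} (hμ : 0 ≤ μ) {F : Matrix n n ℝ} (h1 : (1 - gramC μ F).PosSemidef)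
    (a : ℕ) : Adc 4 (lw μ a) F (pc μ F a) := by
  cases a with
  | zero => simpa [lw, pc] using top_adc hμ h1
  | succ a => simpa [lw, pc] using adc_dreg (μ := 4 ^ a * μ) (by positivity) F

theorem pc_fac {μ : ℝ} (hμ : 0 < μ) {F : Matrix n n ℝ} (h1 : (1 - gramC μ F).PosSemidef)
    (a : ℕ) : ∃ A B : Matrix n n ℝ, pc μ F a = A * B ∧
      (phi (gramR (lw μ a) F) - gramR (lw μ a) A).PosSemidef ∧
      Bᵀ = B ∧ ((9 / 4 : ℝ) • phi (gramC (lw μ a) F) - B * B).PosSemidef := by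
  cases a with
  | zero => simpa [lw, pc] using top_fac hμ h1
  | succ a => simpa [lw, pc] using dreg_fac (α := 4 ^ a * μ) (by positivity) F

/-- centre at the first factor -/
theorem T3_pc_sq_le {r : Matrix n n ℝ} (hr : rᵀ = r) (hr2 : r * r = 1) {μ₀ μ₁ μ₂ : ℝ}
    (h₀ : 0 < μ₀) (h₁ : 0 < μ₁) (h₂ : 0 < μ₂) {F₀ F₁ F₂ : Matrix n n ℝ}
    (k₀ : (1 - gramC μ₀ F₀).PosSemidef) (k₁ : (1 - gramC μ₁ F₁).PosSemidef)
    (k₂ : (1 - gramC μ₂ F₂).PosSemidef) (a b c : ℕ) :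
    (T3 r (pc μ₀ F₀ a) (pc μ₁ F₁ b) (pc μ₂ F₂ c)) ^ 2
      ≤ 36 * (lw μ₀ a * lw μ₁ b * lw μ₂ c)⁻¹
        * (M2 r (lw μ₂ c) (lw μ₀ a) F₂ F₀ * M2 r (lw μ₀ a) (lw μ₁ b) F₀ F₁) := by
  obtain ⟨A, B, hD, hA, hBs, hB⟩ := pc_fac h₀ k₀ a
  have h := T3_fac_sq_le hr hr2 (lw_pos h₀ a) (lw_pos h₁ b) (lw_pos h₂ c)
    (by norm_num : (0 : ℝ) ≤ 4) (by norm_num : (0 : ℝ) ≤ 4) hD hA hBs hB
    (pc_adc h₁.le k₁ b) (pc_adc h₂.le k₂ c)
  refine h.trans (le_of_eq ?_)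
  ring

/-- the part above the remainder is contracted in Hilbert-Schmidt norm -/
theorem hs_sub_reg_le {μ : ℝ} (hμ : 0 ≤ μ) (F : Matrix n n ℝ) :
    ((F - reg μ F)ᵀ * (F - reg μ F)).trace ≤ (Fᵀ * F).trace := by
  have hX := gramC_psd hμ F
  have hs := phi_symm hX
  rw [top_eq]
  have e : (F * phi (gramC μ F))ᵀ * (F * phi (gramC μ F))
      = phi (gramC μ F) * ((Fᵀ * F) * phi (gramC μ F)) := by
    rw [transpose_mul, hs]; simp only [Matrix.mul_assoc]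
  rw [e, trace_mul_comm, Matrix.mul_assoc]
  have h1 : (1 - phi (gramC μ F) * phi (gramC μ F)).PosSemidef := by
    have h := (one_sub_phi_psd hX).add (phi_sub_sq_psd hX)
    rwa [sub_add_sub_cancel] at h
  have h2 := trace_mul_le_right (psd_transpose_mul F) h1
  rwa [Matrix.mul_one] at h2

theorem reg_psd_le {μ : ℝ} (hμ : 0 < μ) (F : Matrix n n ℝ) (L : ℕ) :
    (((4 : ℝ) ^ L * μ)⁻¹ • (1 : Matrix n n ℝ)
      - (reg (4 ^ L * μ) F)ᵀ * reg (4 ^ L * μ) F).PosSemidef := by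
  have h := reg_op (μ := 4 ^ L * μ) (by positivity) F
  have e : (((4 : ℝ) ^ L * μ)⁻¹ • (1 : Matrix n n ℝ)
      - (reg (4 ^ L * μ) F)ᵀ * reg (4 ^ L * μ) F)
      = ((1 / (4 * (4 ^ L * μ))) • (1 : Matrix n n ℝ)
        - (reg (4 ^ L * μ) F)ᵀ * reg (4 ^ L * μ) F)
        + ((3 / 4) * ((4 : ℝ) ^ L * μ)⁻¹) • (1 : Matrix n n ℝ) := by
    have : ((4 : ℝ) ^ L * μ)⁻¹ = 1 / (4 * (4 ^ L * μ)) + (3 / 4) * ((4 : ℝ) ^ L * μ)⁻¹ := by
      field_simp; norm_num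
    conv_lhs => rw [this]
    rw [add_smul]
    abel
  rw [e]
  exact h.add (PosSemidef.one.smul (by positivity))

theorem abs_le_of_sq {x y : ℝ} (h : x ^ 2 ≤ y) : |x| ≤ Real.sqrt y := by
  rw [← Real.sqrt_sq_eq_abs]
  exact Real.sqrt_le_sqrt h

theorem T3_sum_left {ι : Type*} (s : Finset ι) (r : Matrix n n ℝ) (P : ι → Matrix n n ℝ)
    (X Y : Matrix n n ℝ) : T3 r (∑ a ∈ s, P a) X Y = ∑ a ∈ s, T3 r (P a) X Y := by
  simp only [T3, Matrix.mul_sum, Matrix.sum_mul, trace_sum]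

theorem T3_sum_mid {ι : Type*} (s : Finset ι) (r : Matrix n n ℝ) (P : ι → Matrix n n ℝ)
    (X Y : Matrix n n ℝ) : T3 r X (∑ a ∈ s, P a) Y = ∑ a ∈ s, T3 r X (P a) Y := by
  simp only [T3, Matrix.mul_sum, Matrix.sum_mul, trace_sum]

theorem T3_sum_right {ι : Type*} (s : Finset ι) (r : Matrix n n ℝ) (P : ι → Matrix n n ℝ)
    (X Y : Matrix n n ℝ) : T3 r X Y (∑ a ∈ s, P a) = ∑ a ∈ s, T3 r X Y (P a) := by
  simp only [T3, Matrix.mul_sum, trace_sum]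

/-- Hilbert-Schmidt bound for one factor with small operator norm -/
theorem T3_op_le {r : Matrix n n ℝ} (hr : rᵀ = r) (hr2 : r * r = 1) {c s t : ℝ} (hc : 0 ≤ c)
    {F₀ F₁ F₂ : Matrix n n ℝ} (h : (c • (1 : Matrix n n ℝ) - F₀ᵀ * F₀).PosSemidef)
    (h1 : (F₁ᵀ * F₁).trace ≤ s) (h2 : (F₂ᵀ * F₂).trace ≤ t) :
    |T3 r F₀ F₁ F₂| ≤ Real.sqrt c * (Real.sqrt s * Real.sqrt t) := by
  have t1 : 0 ≤ (F₁ᵀ * F₁).trace := (psd_transpose_mul F₁).trace_nonneg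
  have t2 : 0 ≤ (F₂ᵀ * F₂).trace := (psd_transpose_mul F₂).trace_nonneg
  have h3 := T3_op_sq_le hr hr2 h (F₁ := F₁) (F₂ := F₂)
  have h4 : (T3 r F₀ F₁ F₂) ^ 2 ≤ c * (s * t) := by
    refine h3.trans ?_
    rw [mul_assoc]
    exact mul_le_mul_of_nonneg_left (mul_le_mul h1 h2 t2 (t1.trans h1)) hc
  have h5 := abs_le_of_sq h4
  rwa [Real.sqrt_mul hc, Real.sqrt_mul (t1.trans h1)] at h5

/-- one box: all pieces and the three remainders -/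
theorem T3_box {r : Matrix n n ℝ} (hr : rᵀ = r) (hr2 : r * r = 1) {μ₀ μ₁ μ₂ : ℝ}
    (h₀ : 0 < μ₀) (h₁ : 0 < μ₁) (h₂ : 0 < μ₂) (F₀ F₁ F₂ : Matrix n n ℝ) (L : ℕ) :
    |T3 r F₀ F₁ F₂| ≤ (∑ a ∈ Finset.range (L + 1), ∑ b ∈ Finset.range (L + 1),
        ∑ c ∈ Finset.range (L + 1), |T3 r (pc μ₀ F₀ a) (pc μ₁ F₁ b) (pc μ₂ F₂ c)|)
      + (Real.sqrt ((4 ^ L * μ₀)⁻¹) * (Real.sqrt (F₁ᵀ * F₁).trace * Real.sqrt (F₂ᵀ * F₂).trace)
      + Real.sqrt ((4 ^ L * μ₁)⁻¹) * (Real.sqrt (F₂ᵀ * F₂).trace * Real.sqrt (F₀ᵀ * F₀).trace)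
      + Real.sqrt ((4 ^ L * μ₂)⁻¹)
        * (Real.sqrt (F₀ᵀ * F₀).trace * Real.sqrt (F₁ᵀ * F₁).trace)) := by
  have m0 : 0 ≤ (4 : ℝ) ^ L * μ₀ := by positivity
  have m1 : 0 ≤ (4 : ℝ) ^ L * μ₁ := by positivity
  have m2 : 0 ≤ (4 : ℝ) ^ L * μ₂ := by positivity
  have e : T3 r F₀ F₁ F₂ = T3 r (F₀ - reg (4 ^ L * μ₀) F₀) (F₁ - reg (4 ^ L * μ₁) F₁)
        (F₂ - reg (4 ^ L * μ₂) F₂) + (T3 r (reg (4 ^ L * μ₀) F₀) F₁ F₂
      + T3 r (reg (4 ^ L * μ₁) F₁) F₂ (F₀ - reg (4 ^ L * μ₀) F₀)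
      + T3 r (reg (4 ^ L * μ₂) F₂) (F₀ - reg (4 ^ L * μ₀) F₀) (F₁ - reg (4 ^ L * μ₁) F₁)) := by
    generalize reg (4 ^ L * μ₀) F₀ = R₀
    generalize reg (4 ^ L * μ₁) F₁ = R₁
    generalize reg (4 ^ L * μ₂) F₂ = R₂
    rw [← T3_cyc r (F₀ - R₀) R₁ F₂, ← T3_cyc r (F₁ - R₁) R₂ (F₀ - R₀),
      ← T3_cyc r (F₀ - R₀) (F₁ - R₁) R₂]
    simp only [T3, ← trace_add]
    congr 1
    noncomm_ring
  have es : T3 r (F₀ - reg (4 ^ L * μ₀) F₀) (F₁ - reg (4 ^ L * μ₁) F₁)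
      (F₂ - reg (4 ^ L * μ₂) F₂) = ∑ a ∈ Finset.range (L + 1),
      ∑ b ∈ Finset.range (L + 1), ∑ c ∈ Finset.range (L + 1),
        T3 r (pc μ₀ F₀ a) (pc μ₁ F₁ b) (pc μ₂ F₂ c) := by
    rw [← sum_pc, ← sum_pc, ← sum_pc, T3_sum_left]
    refine Finset.sum_congr rfl fun a _ => ?_
    rw [T3_sum_mid]
    exact Finset.sum_congr rfl fun b _ => T3_sum_right _ _ _ _ _
  have b0 := T3_op_le hr hr2 (inv_nonneg.2 m0) (reg_psd_le h₀ F₀ L)
    (le_refl (F₁ᵀ * F₁).trace) (le_refl (F₂ᵀ * F₂).trace)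
  have b1 := T3_op_le hr hr2 (inv_nonneg.2 m1) (reg_psd_le h₁ F₁ L)
    (le_refl (F₂ᵀ * F₂).trace) (hs_sub_reg_le m0 F₀)
  have b2 := T3_op_le hr hr2 (inv_nonneg.2 m2) (reg_psd_le h₂ F₂ L)
    (hs_sub_reg_le m0 F₀) (hs_sub_reg_le m1 F₁)
  rw [e]
  refine (abs_add_le _ _).trans (add_le_add ?_ ?_)
  · rw [es]
    refine (Finset.abs_sum_le_sum_abs _ _).trans (Finset.sum_le_sum fun a _ => ?_)
    refine (Finset.abs_sum_le_sum_abs _ _).trans (Finset.sum_le_sum fun b _ => ?_)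
    exact Finset.abs_sum_le_sum_abs _ _
  · exact (abs_add_three _ _ _).trans (add_le_add (add_le_add b0 b1) b2)

end Vale.Agent.P141.PL.H804
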