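import Vale.Agent.P141.PL.H804.Glue

/-!
# The three-term bound for moving inputs with caps
-/

namespace Vale.Agent.P141.PL.H804

open Finset Matrix Vale.Agent.P075 Vale.Agent.P141.PL Vale.Agent.P141.PL.H588

noncomputable section

/-! ### scalar part -/

theorem core1 {ι : Type*} (s : Finset ι) (t P Q : ι → ℝ) {δ p q b : ℝ} (hδ : 0 ≤ δ)
    (hP : ∀ i ∈ s, 0 ≤ P i) (hQ : ∀ i ∈ s, 0 ≤ Q i) (h : ∀ i ∈ s, t i ^ 2 ≤ 36 * δ * (P i * Q i))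
    (hp : ∑ i ∈ s, P i ≤ p) (hq : ∑ i ∈ s, Q i ≤ q) (hb : 0 ≤ b) (hpq : δ * (p * q) ≤ b ^ 2) :
    ∑ i ∈ s, |t i| ≤ 6 * b := by
  have h1 : ∀ i ∈ s, |t i| ≤ (6 * Real.sqrt δ) * (Real.sqrt (P i) * Real.sqrt (Q i)) := by
    intro i hi
    have h2 := abs_le_of_sq (h i hi)
    refine h2.trans (le_of_eq ?_)
    rw [Real.sqrt_mul (by positivity), Real.sqrt_mul (hP i hi), Real.sqrt_mul (by norm_num),
      show (36 : ℝ) = 6 ^ 2 by norm_num, Real.sqrt_sq (by norm_num)]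
  have hcs : (∑ i ∈ s, Real.sqrt (P i) * Real.sqrt (Q i)) ≤ Real.sqrt p * Real.sqrt q := by
    have e : ∑ i ∈ s, Real.sqrt (P i) * Real.sqrt (Q i)
        = ∑ i ∈ s, Real.sqrt (max (P i) 0) * Real.sqrt (max (Q i) 0) :=
      sum_congr rfl fun i hi => by rw [max_eq_left (hP i hi), max_eq_left (hQ i hi)]
    rw [e]
    refine (Real.sum_sqrt_mul_sqrt_le s (fun i => le_max_right _ _)
      (fun i => le_max_right _ _)).trans ?_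
    have e1 : ∑ i ∈ s, max (P i) 0 = ∑ i ∈ s, P i :=
      sum_congr rfl fun i hi => max_eq_left (hP i hi)
    have e2 : ∑ i ∈ s, max (Q i) 0 = ∑ i ∈ s, Q i :=
      sum_congr rfl fun i hi => max_eq_left (hQ i hi)
    rw [e1, e2]
    exact mul_le_mul (Real.sqrt_le_sqrt hp) (Real.sqrt_le_sqrt hq) (Real.sqrt_nonneg _)
      (Real.sqrt_nonneg _)
  have hp0 : 0 ≤ p := (sum_nonneg hP).trans hp
  calc ∑ i ∈ s, |t i| ≤ ∑ i ∈ s, (6 * Real.sqrt δ) * (Real.sqrt (P i) * Real.sqrt (Q i)) :=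
        sum_le_sum h1
    _ = (6 * Real.sqrt δ) * ∑ i ∈ s, Real.sqrt (P i) * Real.sqrt (Q i) := by rw [mul_sum]
    _ ≤ (6 * Real.sqrt δ) * (Real.sqrt p * Real.sqrt q) :=
        mul_le_mul_of_nonneg_left hcs (by positivity)
    _ = 6 * Real.sqrt (δ * (p * q)) := by
        rw [Real.sqrt_mul hδ, Real.sqrt_mul hp0]; ring
    _ ≤ 6 * b := by
        refine mul_le_mul_of_nonneg_left ?_ (by norm_num)
        rw [show b = Real.sqrt (b ^ 2) from (Real.sqrt_sq hb).symm]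
        exact Real.sqrt_le_sqrt hpq

/-- the numbers at a centre of least weighted energy -/
theorem centre_le {α β γ K D₀ D₁ D₂ c : ℝ} (hα : 0 < α) (hβ : 0 < β) (hγ : 0 < γ) (hK : 0 ≤ K)
    (h0 : 0 ≤ D₀) (h1 : 0 ≤ D₁) (h2 : 0 ≤ D₂) (hc : (c ^ 2)⁻¹ ≤ α) (hc0 : 0 < c)
    (hβ' : α * D₀ ≤ β * D₁) (hγ' : α * D₀ ≤ γ * D₂) :
    (α * β * γ)⁻¹ * ((K * (γ * D₂ + α * D₀)) * (K * (α * D₀ + β * D₁)))
      ≤ (2 * K * (c * Real.sqrt (D₁ * D₂))) ^ 2 := by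
  have hs := Real.sq_sqrt (mul_nonneg h1 h2)
  have e : (2 * K * (c * Real.sqrt (D₁ * D₂))) ^ 2 = 4 * K ^ 2 * c ^ 2 * (D₁ * D₂) := by
    rw [mul_pow, mul_pow, mul_pow c, hs]; ring
  rw [e]
  have i1 : K * (γ * D₂ + α * D₀) ≤ 2 * K * (γ * D₂) := by nlinarith
  have i2 : K * (α * D₀ + β * D₁) ≤ 2 * K * (β * D₁) := by nlinarith
  have n1 : 0 ≤ K * (γ * D₂ + α * D₀) := by positivity
  have n2 : 0 ≤ K * (α * D₀ + β * D₁) := by positivity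
  have i3 := mul_le_mul i1 i2 n2 (n1.trans i1)
  have i4 : α⁻¹ ≤ c ^ 2 := by
    have := inv_anti₀ (by positivity) hc
    rwa [inv_inv] at this
  calc (α * β * γ)⁻¹ * ((K * (γ * D₂ + α * D₀)) * (K * (α * D₀ + β * D₁)))
      ≤ (α * β * γ)⁻¹ * ((2 * K * (γ * D₂)) * (2 * K * (β * D₁))) :=
        mul_le_mul_of_nonneg_left i3 (by positivity)
    _ = 4 * K ^ 2 * α⁻¹ * (D₁ * D₂) := by field_simp; ring
    _ ≤ 4 * K ^ 2 * c ^ 2 * (D₁ * D₂) := by gcongr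

theorem core {ι : Type*} (s : Finset ι) (t M01 M12 M20 : ι → ℝ)
    {α β γ K D₀ D₁ D₂ c₀ c₁ c₂ : ℝ} (hα : 0 < α) (hβ : 0 < β) (hγ : 0 < γ) (hK : 0 ≤ K)
    (h0 : 0 ≤ D₀) (h1 : 0 ≤ D₁) (h2 : 0 ≤ D₂)
    (k0 : (c₀ ^ 2)⁻¹ ≤ α) (k1 : (c₁ ^ 2)⁻¹ ≤ β) (k2 : (c₂ ^ 2)⁻¹ ≤ γ)
    (p0 : 0 < c₀) (p1 : 0 < c₁) (p2 : 0 < c₂)
    (n01 : ∀ i ∈ s, 0 ≤ M01 i) (n12 : ∀ i ∈ s, 0 ≤ M12 i) (n20 : ∀ i ∈ s, 0 ≤ M20 i)
    (t0 : ∀ i ∈ s, t i ^ 2 ≤ 36 * (α * β * γ)⁻¹ * (M20 i * M01 i))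
    (t1 : ∀ i ∈ s, t i ^ 2 ≤ 36 * (α * β * γ)⁻¹ * (M01 i * M12 i))
    (t2 : ∀ i ∈ s, t i ^ 2 ≤ 36 * (α * β * γ)⁻¹ * (M12 i * M20 i))
    (s01 : ∑ i ∈ s, M01 i ≤ K * (α * D₀ + β * D₁)) (s12 : ∑ i ∈ s, M12 i ≤ K * (β * D₁ + γ * D₂))
    (s20 : ∑ i ∈ s, M20 i ≤ K * (γ * D₂ + α * D₀)) :
    ∑ i ∈ s, |t i| ≤ 12 * K * (c₀ * Real.sqrt (D₁ * D₂) + c₁ * Real.sqrt (D₂ * D₀)
      + c₂ * Real.sqrt (D₀ * D₁)) := by
  have q0 : 0 ≤ K * (c₀ * Real.sqrt (D₁ * D₂)) := by positivity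
  have q1 : 0 ≤ K * (c₁ * Real.sqrt (D₂ * D₀)) := by positivity
  have q2 : 0 ≤ K * (c₂ * Real.sqrt (D₀ * D₁)) := by positivity
  have hδ : 0 ≤ (α * β * γ)⁻¹ := by positivity
  rcases le_total (α * D₀) (β * D₁) with hab | hab
  · rcases le_total (α * D₀) (γ * D₂) with hac | hac
    · -- centre 0
      have hc := centre_le hα hβ hγ hK h0 h1 h2 k0 p0 hab hac
      have := core1 s t M20 M01 hδ n20 n01 t0 s20 s01 (by positivity) hc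
      linarith
    · -- centre 2
      have hc := centre_le hγ hα hβ hK h2 h0 h1 k2 p2 hac (hac.trans hab)
      have e : γ * α * β = α * β * γ := by ring
      rw [e] at hc
      have := core1 s t M12 M20 hδ n12 n20 t2 s12 s20 (by positivity) hc
      linarith
  · rcases le_total (β * D₁) (γ * D₂) with hbc | hbc
    · -- centre 1
      have hc := centre_le hβ hγ hα hK h1 h2 h0 k1 p1 hbc hab
      have e : β * γ * α = α * β * γ := by ring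
      rw [e] at hc
      have := core1 s t M01 M12 hδ n01 n12 t1 s01 s12 (by positivity) hc
      linarith
    · -- centre 2
      have hc := centre_le hγ hα hβ hK h2 h0 h1 k2 p2 (hbc.trans hab) hbc
      have e : γ * α * β = α * β * γ := by ring
      rw [e] at hc
      have := core1 s t M12 M20 hδ n12 n20 t2 s12 s20 (by positivity) hc
      linarith

/-! ### energies -/

/-- all energies and all dyadic window sums (time `N - k`) are at most `D` -/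
def Mv (N : ℕ) (R S : ℤ) (J : ℕ) (D : ℝ) (F : ℕ → ℤ → ℤ → ℝ) : Prop :=
  (∀ k, k ≤ N → sq N R S (F k) ≤ D) ∧ ∀ j, j < J → ∑ i ∈ range (2 ^ (J - 1 - j)),
    sq N R S (F (N - min ((2 * i + 1) * 2 ^ j) N) - F (N - min ((2 * i) * 2 ^ j) N)) ≤ D

theorem sq_swap (N : ℕ) (R S : ℤ) (F : ℤ → ℤ → ℝ) :
    sq N S R (fun y x => F x y) = sq N R S F := by
  unfold H588.sq; rw [sum_comm]

theorem sq_sqrt_mul (N : ℕ) (R S : ℤ) {μ : ℝ} (hμ : 0 ≤ μ) (F : ℤ → ℤ → ℝ) :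
    sq N R S (fun x y => Real.sqrt μ * F x y) = μ * sq N R S F := by
  unfold H588.sq
  simp only [mul_pow, Real.sq_sqrt hμ, mul_sum]

theorem sq_nonneg' (N : ℕ) (R S : ℤ) (F : ℤ → ℤ → ℝ) : 0 ≤ sq N R S F :=
  sum_nonneg fun _ _ => sum_nonneg fun _ _ => sq_nonneg _

theorem Mv.swap {N : ℕ} {R S : ℤ} {J : ℕ} {D : ℝ} {F : ℕ → ℤ → ℤ → ℝ} (h : Mv N R S J D F) :
    Mv N S R J D (fun k y x => F k x y) := by
  refine ⟨fun k hk => ?_, fun j hj => ?_⟩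
  · rw [sq_swap]; exact h.1 k hk
  · refine le_trans (le_of_eq ?_) (h.2 j hj)
    exact sum_congr rfl fun i _ => sq_swap N R S _

theorem Mv.smul {N : ℕ} {R S : ℤ} {J : ℕ} {D : ℝ} {F : ℕ → ℤ → ℤ → ℝ} (h : Mv N R S J D F)
    {μ : ℝ} (hμ : 0 ≤ μ) : Mv N R S J (μ * D) (fun k x y => Real.sqrt μ * F k x y) := by
  refine ⟨fun k hk => ?_, fun j hj => ?_⟩
  · rw [sq_sqrt_mul N R S hμ]; exact mul_le_mul_of_nonneg_left (h.1 k hk) hμ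
  · refine le_trans (le_of_eq ?_) (mul_le_mul_of_nonneg_left (h.2 j hj) hμ)
    rw [mul_sum]
    refine sum_congr rfl fun i _ => ?_
    rw [← sq_sqrt_mul N R S hμ]
    congr 1
    funext x y
    simp only [Pi.sub_apply]
    ring

theorem pair_le {C₀ : ℝ} (h : StMov C₀) {N : ℕ} {R S T : ℤ} {c : ℕ → ℤ} (hc : Pl c)
    {F H : ℕ → ℤ → ℤ → ℝ} {J : ℕ} (hJ : N ≤ 2 ^ J) {DF DH μ ν : ℝ} (hμ : 0 ≤ μ) (hν : 0 ≤ ν)
    (hF : Mv N R S J DF F) (hH : Mv N T S J DH H) :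
    ∑ k ∈ Icc 1 N, mnk N R S T k (c k) (fun x y => Real.sqrt μ * F k x y)
        (fun x y => Real.sqrt ν * H k x y)
      ≤ C₀ * (1 + J * (J + 1)) * (μ * DF + ν * DH) := by
  have hF' := hF.smul hμ
  have hH' := hH.smul hν
  have h1 := h N R S T c hc (fun k x y => Real.sqrt μ * F k x y)
    (fun k x y => Real.sqrt ν * H k x y) J hJ (μ * DF + ν * DH) (μ * DF + ν * DH)
    (add_le_add (hF'.1 N le_rfl) (hH'.1 N le_rfl)) (fun j hj => by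
      rw [sum_add_distrib]
      exact add_le_add (hF'.2 j hj) (hH'.2 j hj))
  refine h1.trans (le_of_eq ?_)
  ring

/-! ### plane sums of the main terms -/

theorem mnk_two (N : ℕ) (R : Pt) (k : ℕ) (c : ℤ) {α β : ℝ} (hα : 0 ≤ α) (hβ : 0 ≤ β)
    (A B : ℤ → ℤ → ℝ) :
    mnk N R.1 R.2.1 R.2.2 k c (fun x y => Real.sqrt α * A x y) (fun x y => Real.sqrt β * B y x)
      = ∑ m ∈ bx3 N R k c, 4 ^ k * M2 (hd k) (α * (4 ^ k)⁻¹) (β * (4 ^ k)⁻¹)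
          (bl k A m.1 m.2.1) (bl k B m.2.1 m.2.2) := by
  rw [← mul_sum, sum_bx3_21, mnk]
  refine congrArg (fun t : ℝ => (4 : ℝ) ^ k * t) ?_
  refine sum_congr rfl fun m2 _ => sum_congr rfl fun m1 _ => ?_
  refine if_congr Iff.rfl ?_ rfl
  rw [Xg_gramC k hα, Xg_gramR k hβ]
  rfl

theorem mnk_one (N : ℕ) (R : Pt) (k : ℕ) (c : ℤ) {α γ : ℝ} (hα : 0 ≤ α) (hγ : 0 ≤ γ)
    (A C : ℤ → ℤ → ℝ) :
    mnk N R.2.1 R.1 R.2.2 k c (fun x y => Real.sqrt α * A y x) (fun x y => Real.sqrt γ * C y x)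
      = ∑ m ∈ bx3 N R k c, 4 ^ k * M2 (hd k) (γ * (4 ^ k)⁻¹) (α * (4 ^ k)⁻¹)
          (bl k C m.1 m.2.2)ᵀ (bl k A m.1 m.2.1) := by
  rw [← mul_sum, sum_bx3_12, mnk]
  refine congrArg (fun t : ℝ => (4 : ℝ) ^ k * t) ?_
  refine sum_congr rfl fun m1 _ => sum_congr rfl fun m2 _ => ?_
  refine if_congr Iff.rfl ?_ rfl
  rw [Xg_gramR k hα, Xg_gramR k hγ, M2, gramC_transpose, tr_rot]

theorem mnk_three (N : ℕ) (R : Pt) (k : ℕ) (c : ℤ) {β γ : ℝ} (hβ : 0 ≤ β) (hγ : 0 ≤ γ)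
    (B C : ℤ → ℤ → ℝ) :
    mnk N R.2.1 R.2.2 R.1 k c (fun x y => Real.sqrt β * B x y) (fun x y => Real.sqrt γ * C x y)
      = ∑ m ∈ bx3 N R k c, 4 ^ k * M2 (hd k) (β * (4 ^ k)⁻¹) (γ * (4 ^ k)⁻¹)
          (bl k B m.2.1 m.2.2) (bl k C m.1 m.2.2)ᵀ := by
  rw [← mul_sum, sum_bx3_32, mnk]
  refine congrArg (fun t : ℝ => (4 : ℝ) ^ k * t) ?_
  refine sum_congr rfl fun m3 _ => sum_congr rfl fun m2 _ => ?_
  refine if_congr Iff.rfl ?_ rfl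
  rw [Xg_gramC k hβ, Xg_gramC k hγ, M2, gramR_transpose]

/-! ### tails -/

theorem iv_sum {N k : ℕ} (hk : k ≤ N) (R : ℤ) (f : ℤ → ℝ) :
    ∑ m ∈ iv (N - k) R, ∑ x ∈ iv k m, f x = ∑ x ∈ iv N R, f x := by
  have hmap : ∀ x ∈ iv N R, ix k x ∈ iv (N - k) R := by
    intro x hx
    rw [mem_iv] at hx ⊢
    rw [ix_ix, Nat.add_sub_cancel' hk]
    exact hx
  rw [← sum_fiberwise_of_maps_to hmap]
  refine sum_congr rfl fun m hm => sum_congr ?_ fun _ _ => rfl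
  ext x
  rw [mem_filter, mem_iv, mem_iv]
  constructor
  · intro h
    refine ⟨?_, h⟩
    rw [mem_iv] at hm
    rw [← h, ix_ix, Nat.add_sub_cancel' hk] at hm
    exact hm
  · exact fun h => h.2

theorem trace_bl (k : ℕ) (A : ℤ → ℤ → ℝ) (m1 m2 : ℤ) :
    ((bl k A m1 m2)ᵀ * bl k A m1 m2).trace = ∑ y ∈ iv k m2, ∑ x ∈ iv k m1, A x y ^ 2 := by
  rw [sum_iv]
  simp only [Matrix.trace, Matrix.diag_apply, Matrix.mul_apply, Matrix.transpose_apply]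
  refine sum_congr rfl fun j _ => ?_
  rw [sum_iv]
  exact sum_congr rfl fun i _ => by simp only [bl, smp]; ring

theorem trace_bl_nonneg (k : ℕ) (A : ℤ → ℤ → ℝ) (m1 m2 : ℤ) :
    0 ≤ ((bl k A m1 m2)ᵀ * bl k A m1 m2).trace := (psd_transpose_mul _).trace_nonneg

theorem trace_bl_transpose (k : ℕ) (A : ℤ → ℤ → ℝ) (m1 m2 : ℤ) :
    (((bl k A m1 m2)ᵀ)ᵀ * (bl k A m1 m2)ᵀ).trace = ((bl k A m1 m2)ᵀ * bl k A m1 m2).trace := by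
  rw [transpose_transpose, trace_mul_comm]

theorem sum_trace {N k : ℕ} (hk : k ≤ N) (R S : ℤ) (A : ℤ → ℤ → ℝ) :
    ∑ m1 ∈ iv (N - k) R, ∑ m2 ∈ iv (N - k) S, ((bl k A m1 m2)ᵀ * bl k A m1 m2).trace
      = sq N R S A := by
  simp only [trace_bl]
  rw [sum_comm]
  have h : ∀ m2 : ℤ, ∑ m1 ∈ iv (N - k) R, ∑ y ∈ iv k m2, ∑ x ∈ iv k m1, A x y ^ 2
      = ∑ y ∈ iv k m2, ∑ x ∈ iv N R, A x y ^ 2 := by
    intro m2
    rw [sum_comm]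
    exact sum_congr rfl fun y _ => iv_sum hk R (fun x => A x y ^ 2)
  simp only [h]
  exact iv_sum hk S (fun y => ∑ x ∈ iv N R, A x y ^ 2)

theorem plane_12 {N k : ℕ} (hk : k ≤ N) (R : Pt) (c : ℤ) (A : ℤ → ℤ → ℝ) :
    ∑ m ∈ bx3 N R k c, ((bl k A m.1 m.2.1)ᵀ * bl k A m.1 m.2.1).trace ≤ sq N R.1 R.2.1 A := by
  rw [sum_bx3_12, ← sum_trace hk]
  refine sum_le_sum fun m1 _ => sum_le_sum fun m2 _ => ?_
  split_ifs
  · exact le_rfl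
  · exact trace_bl_nonneg _ _ _ _

theorem plane_23 {N k : ℕ} (hk : k ≤ N) (R : Pt) (c : ℤ) (A : ℤ → ℤ → ℝ) :
    ∑ m ∈ bx3 N R k c, ((bl k A m.2.1 m.2.2)ᵀ * bl k A m.2.1 m.2.2).trace
      ≤ sq N R.2.1 R.2.2 A := by
  rw [sum_bx3_32, ← sum_trace hk, sum_comm]
  refine sum_le_sum fun m1 _ => sum_le_sum fun m2 _ => ?_
  split_ifs
  · exact le_rfl
  · exact trace_bl_nonneg _ _ _ _

theorem plane_13 {N k : ℕ} (hk : k ≤ N) (R : Pt) (c : ℤ) (A : ℤ → ℤ → ℝ) :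
    ∑ m ∈ bx3 N R k c, ((bl k A m.1 m.2.2)ᵀ * bl k A m.1 m.2.2).trace
      ≤ sq N R.1 R.2.2 A := by
  rw [sum_bx3, ← sum_trace hk]
  refine sum_le_sum fun m1 _ => ?_
  rw [sum_comm]
  refine sum_le_sum fun m3 _ => ?_
  have h := sum_ite_plane (iv (N - k) R.2.1) (m1 + m3) c
    (fun _ => ((bl k A m1 m3)ᵀ * bl k A m1 m3).trace)
  have e : ∀ m2 : ℤ, m1 + m2 + m3 = m1 + m3 + m2 := fun m2 => by ring
  simp only [e, h]
  split_ifs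
  · exact le_rfl
  · exact trace_bl_nonneg _ _ _ _

theorem tail_cs {ι : Type*} (s : Finset ι) (a b : ι → ℝ) {p q : ℝ} (ha : ∀ i, 0 ≤ a i)
    (hb : ∀ i, 0 ≤ b i) (hp : ∑ i ∈ s, a i ≤ p) (hq : ∑ i ∈ s, b i ≤ q) :
    ∑ i ∈ s, Real.sqrt (a i) * Real.sqrt (b i) ≤ Real.sqrt (p * q) := by
  rw [Real.sqrt_mul ((sum_nonneg fun i _ => ha i).trans hp)]
  exact (Real.sum_sqrt_mul_sqrt_le s ha hb).trans (mul_le_mul (Real.sqrt_le_sqrt hp)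
    (Real.sqrt_le_sqrt hq) (Real.sqrt_nonneg _) (Real.sqrt_nonneg _))

theorem sqrt_tail {c : ℝ} (hc : 0 < c) (k L : ℕ) :
    Real.sqrt ((4 ^ L * ((c ^ 2)⁻¹ * (4 ^ k)⁻¹))⁻¹) = c * 2 ^ k / 2 ^ L := by
  have h4 : ∀ j : ℕ, (4 : ℝ) ^ j = (2 ^ j) ^ 2 := fun j => by
    rw [← pow_mul, mul_comm, pow_mul]; norm_num
  have e : (4 ^ L * ((c ^ 2)⁻¹ * ((4 : ℝ) ^ k)⁻¹))⁻¹ = (c * 2 ^ k / 2 ^ L) ^ 2 := by
    rw [h4, h4]; field_simp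
  rw [e, Real.sqrt_sq (by positivity)]

end

end Vale.Agent.P141.PL.H804
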